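import Vale.Agent.P046.Track.Defs

/-!
Exact counting identities for one step of random triangle removal.
-/

namespace Vale.Agent.P046.Track

open Finset
open scoped Classical

variable {n : ℕ} {G : Finset (Sym2 (Fin n))}

/-- The number of triangles of `G` through the pair `e`. -/
noncomputable def cod (G : Finset (Sym2 (Fin n))) (e : Sym2 (Fin n)) : ℕ :=
  #{u ∈ triangles G | e ∈ edgesOf u}

/-- The codegree sum of the three edges of `u`. -/
noncomputable def cs (G : Finset (Sym2 (Fin n))) (u : Finset (Fin n)) : ℝ :=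
  ∑ e ∈ edgesOf u, (cod G e : ℝ)

/-- The number of triangles that choosing `t` destroys, itself included. -/
noncomputable def kill (G : Finset (Sym2 (Fin n))) (t : Finset (Fin n)) : ℕ :=
  #{u ∈ triangles G | ¬ Disjoint (edgesOf u) (edgesOf t)}

/-- The number of triangles through `e` that choosing `t` destroys. -/
noncomputable def loss (G : Finset (Sym2 (Fin n))) (t : Finset (Fin n)) (e : Sym2 (Fin n)) : ℕ :=
  #{u ∈ triangles G | e ∈ edgesOf u ∧ ¬ Disjoint (edgesOf u) (edgesOf t)}

lemma card3_of_mem {u : Finset (Fin n)} (hu : u ∈ triangles G) : u.card = 3 := by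
  simp only [triangles, mem_filter, mem_powersetCard] at hu; exact hu.1.2

lemma edgesOf_sub {u : Finset (Fin n)} (hu : u ∈ triangles G) : edgesOf u ⊆ G := by
  simp only [triangles, mem_filter] at hu; exact hu.2

lemma card_edgesOf {u : Finset (Fin n)} (hu : u.card = 3) : (edgesOf u).card = 3 := by
  obtain ⟨a, b, c, hab, hac, hbc, rfl⟩ := Finset.card_eq_three.1 hu
  have h : edgesOf ({a, b, c} : Finset (Fin n)) = {s(a, b), s(a, c), s(b, c)} := by
    ext e
    induction e using Sym2.ind with
    | _ x y =>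
      simp only [edgesOf, mem_filter, Finset.mem_sym2_iff, Sym2.mem_iff, mem_insert,
        mem_singleton, Sym2.mk_isDiag_iff, forall_eq_or_imp, forall_eq, Sym2.eq_iff]
      constructor
      · rintro ⟨⟨hx, hy⟩, hne⟩
        rcases hx with rfl | rfl | rfl <;> rcases hy with rfl | rfl | rfl <;> simp_all
      · rintro ((⟨rfl, rfl⟩ | ⟨rfl, rfl⟩) | (⟨rfl, rfl⟩ | ⟨rfl, rfl⟩) | (⟨rfl, rfl⟩ | ⟨rfl, rfl⟩)) <;>
          simp_all [eq_comm]
  rw [h]
  rw [card_insert_of_notMem, card_insert_of_notMem, card_singleton] <;>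
    simp [Sym2.eq_iff, hab, hac, hbc, hab.symm, hac.symm, hbc.symm]

/-- Two different edges lie in at most one triangle. -/
lemma eq_of_two_edges {u v : Finset (Fin n)} (hu : u.card = 3) (hv : v.card = 3)
    {e f : Sym2 (Fin n)} (hef : e ≠ f) (he : e ∈ edgesOf u) (hf : f ∈ edgesOf u)
    (he' : e ∈ edgesOf v) (hf' : f ∈ edgesOf v) : u = v := by
  have key : ∀ w : Finset (Fin n), w.card = 3 → e ∈ edgesOf w → f ∈ edgesOf w →
      w = univ.filter fun x => x ∈ e ∨ x ∈ f := by
    intro w hw hew hfw
    simp only [edgesOf, mem_filter, Finset.mem_sym2_iff] at hew hfw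
    refine (Finset.eq_of_subset_of_card_le (fun x hx => ?_) ?_).symm
    · rcases (mem_filter.1 hx).2 with h | h
      · exact hew.1 x h
      · exact hfw.1 x h
    · rw [hw]
      induction e using Sym2.ind with
      | _ a b =>
        induction f using Sym2.ind with
        | _ c d =>
          simp only [Sym2.mk_isDiag_iff] at hew hfw
          have h4 : c ≠ a ∧ c ≠ b ∨ d ≠ a ∧ d ≠ b := by
            by_contra hh
            push Not at hh
            obtain ⟨h1, h2⟩ := hh
            apply hef
            rw [Sym2.eq_iff]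
            rcases eq_or_ne c a with rfl | hca
            · rcases eq_or_ne d c with rfl | hdc
              · exact absurd rfl hfw.2
              · exact Or.inl ⟨rfl, (h2 hdc).symm⟩
            · have hcb := h1 hca
              subst hcb
              rcases eq_or_ne d a with rfl | hda
              · exact Or.inr ⟨rfl, rfl⟩
              · exact absurd (h2 hda).symm hfw.2
          rcases h4 with h4 | h4
          · refine le_trans ?_ (card_le_card (s := {c, a, b}) ?_)
            · rw [card_insert_of_notMem (by simp [h4.1, h4.2]), card_pair hew.2]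
            · intro x hx
              simp only [mem_insert, mem_singleton] at hx
              rcases hx with rfl | rfl | rfl <;> simp
          · refine le_trans ?_ (card_le_card (s := {d, a, b}) ?_)
            · rw [card_insert_of_notMem (by simp [h4.1, h4.2]), card_pair hew.2]
            · intro x hx
              simp only [mem_insert, mem_singleton] at hx
              rcases hx with rfl | rfl | rfl <;> simp
  rw [key u hu he hf, key v hv he' hf']

lemma triangles_sdiff (t : Finset (Fin n)) :
    triangles (G \ edgesOf t) = {u ∈ triangles G | Disjoint (edgesOf u) (edgesOf t)} := by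
  ext u
  simp only [triangles, mem_filter, Finset.subset_sdiff]
  tauto

lemma card_triangles_sdiff (t : Finset (Fin n)) :
    ((triangles (G \ edgesOf t)).card : ℝ) = (triangles G).card - kill G t := by
  rw [triangles_sdiff, eq_sub_iff_add_eq, kill]
  exact_mod_cast Finset.card_filter_add_card_filter_not _

lemma cod_sdiff (t : Finset (Fin n)) (e : Sym2 (Fin n)) :
    (cod (G \ edgesOf t) e : ℝ) = cod G e - loss G t e := by
  rw [eq_sub_iff_add_eq, cod, cod, loss, triangles_sdiff, filter_filter]
  norm_cast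
  have h := Finset.card_filter_add_card_filter_not
    (s := {u ∈ triangles G | e ∈ edgesOf u}) (fun u => Disjoint (edgesOf u) (edgesOf t))
  rw [filter_filter, filter_filter] at h
  convert h using 3
  exact filter_congr fun u _ => and_comm

lemma loss_le_three {t : Finset (Fin n)} (ht : t ∈ triangles G) {e : Sym2 (Fin n)}
    (he : e ∉ edgesOf t) : loss G t e ≤ 3 := by
  refine le_trans (card_le_card (t := (edgesOf t).biUnion fun f =>
      {u ∈ triangles G | e ∈ edgesOf u ∧ f ∈ edgesOf u}) ?_) ?_
  · intro u hu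
    obtain ⟨hu1, hu2, hu3⟩ := mem_filter.1 hu
    obtain ⟨f, hf1, hf2⟩ := Finset.not_disjoint_iff.1 hu3
    exact mem_biUnion.2 ⟨f, hf2, mem_filter.2 ⟨hu1, hu2, hf1⟩⟩
  · refine card_biUnion_le.trans ?_
    refine (sum_le_card_nsmul _ _ 1 fun f hf => ?_).trans_eq (by simp [card_edgesOf (card3_of_mem ht)])
    refine card_le_one.2 fun u hu v hv => ?_
    obtain ⟨hu1, hu2, hu3⟩ := mem_filter.1 hu
    obtain ⟨hv1, hv2, hv3⟩ := mem_filter.1 hv
    exact eq_of_two_edges (card3_of_mem hu1) (card3_of_mem hv1)
      (fun h => he (by rw [h]; exact hf)) hu2 hu3 hv2 hv3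

lemma cod_le (G : Finset (Sym2 (Fin n))) (e : Sym2 (Fin n)) : cod G e ≤ n := by
  induction e using Sym2.ind with
  | _ a b =>
    refine le_trans (card_le_card (t := univ.image fun x => ({a, b, x} : Finset (Fin n))) ?_)
      (card_image_le.trans (by simp))
    intro u hu
    obtain ⟨hu1, hu2⟩ := mem_filter.1 hu
    simp only [edgesOf, mem_filter, Finset.mem_sym2_iff, Sym2.mem_iff, forall_eq_or_imp,
      forall_eq, Sym2.mk_isDiag_iff] at hu2
    obtain ⟨x, hx, hxab⟩ : ∃ x ∈ u, x ∉ ({a, b} : Finset (Fin n)) := by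
      refine exists_mem_notMem_of_card_lt_card ?_
      rw [card_pair hu2.2, card3_of_mem hu1]; norm_num
    refine mem_image.2 ⟨x, mem_univ _, Finset.eq_of_subset_of_card_le ?_ ?_⟩
    · intro y hy
      simp only [mem_insert, mem_singleton] at hy
      rcases hy with rfl | rfl | rfl
      exacts [hu2.1.1, hu2.1.2, hx]
    · simp only [mem_insert, mem_singleton, not_or] at hxab
      rw [card3_of_mem hu1, card_insert_of_notMem (by simp [hu2.2, Ne.symm hxab.1]),
        card_pair (Ne.symm hxab.2)]

lemma swap_sum (G : Finset (Sym2 (Fin n))) (F : Sym2 (Fin n) → ℝ) :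
    ∑ u ∈ triangles G, ∑ e ∈ edgesOf u, F e = ∑ e ∈ G, (cod G e : ℝ) * F e := by
  have h : ∀ u ∈ triangles G, ∑ e ∈ edgesOf u, F e = ∑ e ∈ G, if e ∈ edgesOf u then F e else 0 := by
    intro u hu
    rw [← sum_filter, filter_mem_eq_inter, inter_eq_right.2 (edgesOf_sub hu)]
  rw [sum_congr rfl h, sum_comm]
  refine sum_congr rfl fun e _ => ?_
  rw [← sum_filter, sum_const, nsmul_eq_mul, cod]

lemma sum_cod (G : Finset (Sym2 (Fin n))) :
    ∑ e ∈ G, (cod G e : ℝ) = 3 * (triangles G).card := by
  have h := swap_sum G fun _ => (1 : ℝ)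
  simp only [mul_one] at h
  rw [← h, sum_congr rfl fun u hu => (by simp [card_edgesOf (card3_of_mem hu)] :
    ∑ _e ∈ edgesOf u, (1 : ℝ) = 3)]
  rw [sum_const, nsmul_eq_mul, mul_comm]

lemma sum_cs (G : Finset (Sym2 (Fin n))) :
    ∑ u ∈ triangles G, cs G u = ∑ e ∈ G, (cod G e : ℝ) ^ 2 := by
  simp only [cs, sq]
  exact swap_sum G fun e => (cod G e : ℝ)

lemma kill_eq {u : Finset (Fin n)} (hu : u ∈ triangles G) : (kill G u : ℝ) = cs G u - 2 := by
  have h3 : ∀ t ∈ triangles G, ((edgesOf u).filter (· ∈ edgesOf t)).card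
      = (if ¬ Disjoint (edgesOf t) (edgesOf u) then 1 else 0) + (if t = u then 2 else 0) := by
    intro t ht
    by_cases htu : t = u
    · subst htu
      have hne : ¬ Disjoint (edgesOf t) (edgesOf t) := by
        simpa [disjoint_self] using (edgesOf_nonempty (card3_of_mem hu)).ne_empty
      rw [if_pos hne, if_pos rfl, filter_true_of_mem fun f hf => hf, card_edgesOf (card3_of_mem hu)]
    · by_cases hd : Disjoint (edgesOf t) (edgesOf u)
      · simp only [hd, not_true, htu, if_false, add_zero, card_eq_zero, filter_eq_empty_iff]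
        exact fun {f} hf hf' => Finset.disjoint_left.1 hd hf' hf
      · obtain ⟨f, hf1, hf2⟩ := Finset.not_disjoint_iff.1 hd
        rw [if_pos hd, if_neg htu, add_zero, card_eq_one]
        refine ⟨f, eq_singleton_iff_unique_mem.2 ⟨mem_filter.2 ⟨hf2, hf1⟩, fun g hg => ?_⟩⟩
        by_contra hgf
        exact htu (eq_of_two_edges (card3_of_mem ht) (card3_of_mem hu) hgf
          (mem_filter.1 hg).2 hf1 (mem_filter.1 hg).1 hf2)
  have : (cs G u) = ∑ t ∈ triangles G, (((edgesOf u).filter (· ∈ edgesOf t)).card : ℝ) := by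
    simp only [cs, cod, card_filter, Nat.cast_sum, Nat.cast_ite, Nat.cast_one, Nat.cast_zero]
    exact sum_comm
  rw [this, sum_congr rfl fun t ht => by rw [h3 t ht]]
  push_cast
  rw [sum_add_distrib, sum_ite_eq' (triangles G) u fun _ => (2 : ℝ), if_pos hu, sum_boole, kill]
  ring

lemma sum_loss {e : Sym2 (Fin n)} :
    ∑ t ∈ triangles G with e ∉ edgesOf t, (loss G t e : ℝ) =
      ∑ u ∈ triangles G with e ∈ edgesOf u, (cs G u - 2 - cod G e) := by
  simp only [loss, card_filter, Nat.cast_sum, Nat.cast_ite, Nat.cast_one, Nat.cast_zero]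
  rw [sum_comm, sum_filter (s := triangles G) (p := fun u => e ∈ edgesOf u)]
  refine sum_congr rfl fun u hu => ?_
  split_ifs with he
  · simp only [he, true_and]
    rw [← kill_eq hu, sum_boole, filter_filter, eq_sub_iff_add_eq, kill, cod]
    norm_cast
    rw [← card_union_of_disjoint]
    · congr 1; ext t
      simp only [mem_union, mem_filter]
      constructor
      · rintro (⟨ht, _, hd⟩ | ⟨ht, het⟩)
        · exact ⟨ht, fun h => hd h.symm⟩
        · exact ⟨ht, fun h => Finset.disjoint_left.1 h het he⟩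
      · rintro ⟨ht, hd⟩
        by_cases het : e ∈ edgesOf t
        · exact Or.inr ⟨ht, het⟩
        · exact Or.inl ⟨ht, het, fun h => hd h.symm⟩
    · exact disjoint_filter.2 fun t _ h h' => h.1 h'
  · simp [he]

/-- Reindexing a sum over surviving edges and chosen triangles. -/
lemma sum_sdiff_eq (G : Finset (Sym2 (Fin n))) (H : Finset (Fin n) → Sym2 (Fin n) → ℝ) :
    ∑ t ∈ triangles G, ∑ e ∈ G \ edgesOf t, H t e =
      ∑ e ∈ G, ∑ t ∈ triangles G with e ∉ edgesOf t, H t e := by
  simp only [sum_filter]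
  rw [sum_comm]
  refine sum_congr rfl fun t _ => ?_
  rw [← sum_filter, filter_notMem_eq_sdiff]

lemma sum_survive (G : Finset (Sym2 (Fin n))) (F : Sym2 (Fin n) → ℝ) :
    ∑ t ∈ triangles G, ∑ e ∈ G \ edgesOf t, F e =
      (triangles G).card * ∑ e ∈ G, F e - ∑ e ∈ G, (cod G e : ℝ) * F e := by
  rw [← swap_sum, ← smul_eq_mul, Nat.cast_smul_eq_nsmul, ← sum_const, ← sum_sub_distrib]
  refine sum_congr rfl fun t ht => ?_
  rw [eq_sub_iff_add_eq, sum_sdiff (edgesOf_sub ht)]

lemma sum_survive_loss (G : Finset (Sym2 (Fin n))) (h : Sym2 (Fin n) → ℝ) :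
    ∑ t ∈ triangles G, ∑ e ∈ G \ edgesOf t, h e * loss G t e =
      ∑ u ∈ triangles G, ∑ e ∈ edgesOf u, h e * (cs G u - 2 - cod G e) := by
  rw [sum_sdiff_eq]
  simp only [← mul_sum, sum_loss]
  simp only [mul_sum, sum_filter]
  rw [sum_comm]
  refine sum_congr rfl fun u hu => ?_
  simp only [mul_ite, mul_zero]
  rw [← sum_filter, filter_mem_eq_inter, inter_eq_right.2 (edgesOf_sub hu)]

lemma card_sdiff_edgesOf {t : Finset (Fin n)} (ht : t ∈ triangles G) :
    ((G \ edgesOf t).card : ℝ) = G.card - 3 := by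
  have h := card_sdiff_add_card_eq_card (edgesOf_sub ht)
  rw [card_edgesOf (card3_of_mem ht)] at h
  rw [eq_sub_iff_add_eq]; exact_mod_cast h

end Vale.Agent.P046.Track
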