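import Vale.Agent.P046.Track.Drift

/-!
The supermartingale bound: random triangle removal keeps going until about
`n^{3/2} sqrt (log n)` edges are left.
-/

namespace Vale.Agent.P046.Track

open Finset
open scoped Classical

variable {n : ℕ}

/-- The indicator that more than `E0` edges are left. -/
noncomputable def tail (E0 : ℝ) (G : Finset (Sym2 (Fin n))) : ℝ :=
  if E0 < (G.card : ℝ) then 1 else 0

/-- The allowed drift of the relative triangle count. -/
noncomputable def eta (L : ℝ) (G : Finset (Sym2 (Fin n))) : ℝ := 5000 * L / mG G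

/-- The supermartingale. -/
noncomputable def pot (E0 L : ℝ) (G : Finset (Sym2 (Fin n))) : ℝ :=
  Lam G / L + 1000000 * (Real.log G.card / L + 25015002 * L * (2 / mE n E0 - 1 / mG G)) +
    300000 * G.card / ((n : ℝ) ^ 2 * L ^ 2) +
    (mG G / L) ^ 2 * (max 0 (mu G - eta L G) ^ 2 + max 0 (-mu G - eta L G) ^ 2)

/-- The hypotheses on the parameters. -/
structure Params (n : ℕ) (E0 L : ℝ) : Prop where
  n_two : 2 ≤ n
  L_one : 1 ≤ L
  E0_big : 30 ≤ E0
  E0_n : 2 * (n : ℝ) ≤ E0
  m0_big : 100040004 * L ≤ mE n E0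

variable {E0 L : ℝ}

lemma sum_max_sq {ι : Type*} (s : Finset ι) (hs : s.Nonempty) (δ : ι → ℝ) (x Δ : ℝ)
    (x' : ι → ℝ) (hx : ∀ t ∈ s, x' t ≤ x + δ t - Δ) (hδ : ∑ t ∈ s, δ t ≤ s.card * Δ) :
    ∑ t ∈ s, max 0 (x' t) ^ 2 ≤ s.card * max 0 x ^ 2 + ∑ t ∈ s, δ t ^ 2 := by
  have hc : (0 : ℝ) < s.card := by exact_mod_cast hs.card_pos
  obtain ⟨a, ha⟩ : ∃ a, a = (∑ t ∈ s, δ t) / s.card := ⟨_, rfl⟩
  have hsum : ∑ t ∈ s, δ t = s.card * a := by rw [ha]; field_simp
  have haΔ : a ≤ Δ := by rw [ha, div_le_iff₀ hc]; linarith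
  have one : ∀ t ∈ s, max 0 (x' t) ^ 2 ≤ (max 0 x + (δ t - a)) ^ 2 := by
    intro t ht
    rcases le_or_gt (x' t) 0 with h | h
    · rw [max_eq_left h]; norm_num; exact sq_nonneg _
    · rw [max_eq_right h.le]
      refine pow_le_pow_left₀ h.le ?_ 2
      linarith [hx t ht, le_max_right 0 x]
  refine (sum_le_sum one).trans ?_
  have e : ∑ t ∈ s, (max 0 x + (δ t - a)) ^ 2 =
      s.card * max 0 x ^ 2 + ∑ t ∈ s, δ t ^ 2 - s.card * a ^ 2 := by
    have : ∀ t ∈ s, (max 0 x + (δ t - a)) ^ 2 =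
        δ t ^ 2 + δ t * (2 * (max 0 x - a)) + (max 0 x - a) ^ 2 := fun t _ => by ring
    rw [sum_congr rfl this, sum_add_distrib, sum_add_distrib, ← sum_mul, hsum, sum_const,
      nsmul_eq_mul]
    ring
  rw [e]
  have := mul_nonneg hc.le (sq_nonneg a)
  linarith

lemma card_completeEdges (n : ℕ) : ((completeEdges n).card : ℝ) = n * ((n : ℝ) - 1) / 2 := by
  have h := Sym2.card_subtype_not_diag (α := Fin n)
  rw [Fintype.card_subtype, Fintype.card_fin] at h
  rw [completeEdges, h, Nat.cast_choose_two]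

lemma Params.state (hp : Params n E0 L) {G : Finset (Sym2 (Fin n))} (hG : G ⊆ completeEdges n)
    (hE : E0 < (G.card : ℝ)) :
    0 < mG G ∧ mE n E0 ≤ mG G ∧ mG G ≤ n := by
  have hn : (0 : ℝ) < n := by exact_mod_cast (by linarith [hp.n_two] : 0 < n)
  have hE0 : 0 < E0 := by linarith [hp.E0_big]
  have h1 : mE n E0 ≤ mG G := by
    unfold mG mE; gcongr
  refine ⟨lt_of_lt_of_le (by unfold mE; positivity) h1, h1, ?_⟩
  have hc : (G.card : ℝ) ≤ (n : ℝ) ^ 2 / 2 := by
    have : (G.card : ℝ) ≤ (completeEdges n).card := by exact_mod_cast card_le_card hG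
    rw [card_completeEdges] at this; nlinarith
  unfold mG mE
  rw [div_le_iff₀ (by positivity)]
  have := pow_le_pow_left₀ (Nat.cast_nonneg G.card) hc 2
  nlinarith

lemma Lam_nonneg (G : Finset (Sym2 (Fin n))) : 0 ≤ Lam G := by
  rw [Lam]
  exact mul_nonneg (div_nonneg (by unfold mG mE; positivity) (Nat.cast_nonneg _))
    (sum_nonneg fun e _ => φ_nonneg _)

lemma Params.pot_nonneg (hp : Params n E0 L) {G : Finset (Sym2 (Fin n))}
    (hm : mE n E0 / 2 ≤ mG G) (hE : 1 ≤ (G.card : ℝ)) : 0 ≤ pot E0 L G := by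
  have hL : 0 < L := by linarith [hp.L_one]
  have h0 : 0 < mE n E0 := by linarith [hp.m0_big]
  have h1 : 0 ≤ 2 / mE n E0 - 1 / mG G := by
    have h := one_div_le_one_div_of_le (by linarith : 0 < mE n E0 / 2) hm
    rw [one_div_div] at h; linarith
  have := Lam_nonneg G
  have := Real.log_nonneg hE
  unfold pot; positivity

/-- What a potential below one gives. -/
lemma Params.good_of_lt (hp : Params n E0 L) {G : Finset (Sym2 (Fin n))} (hG : G ⊆ completeEdges n)
    (hE : E0 < (G.card : ℝ)) (hB : pot E0 L G < 1) :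
    Good G ∧ Lam G < L ∧ |mu G| ≤ 5001 * L / mG G ∧ 100040004 * L ≤ mG G := by
  obtain ⟨hm, hm0, hmn⟩ := hp.state hG hE
  obtain ⟨E, hEdef⟩ : ∃ E : ℝ, E = G.card := ⟨_, rfl⟩
  obtain ⟨m, hmdef⟩ : ∃ m : ℝ, m = mG G := ⟨_, rfl⟩
  have hL1 := hp.L_one
  have hL : 0 < L := by linarith
  have hmb : 100040004 * L ≤ m := by rw [hmdef]; linarith [hp.m0_big]
  have hE30 : 30 ≤ E := by rw [hEdef]; linarith [hp.E0_big]
  have hE0 : 0 < E := by linarith
  rw [← hmdef] at hm hm0 hmn
  -- what the bound on the potential gives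
  have hlog : 0 ≤ Real.log E := Real.log_nonneg (by linarith)
  have hm00 : 0 < mE n E0 := by linarith [hp.m0_big]
  have hi : 0 ≤ 2 / mE n E0 - 1 / m := by
    have := one_div_le_one_div_of_le hm00 hm0
    have : 0 < 1 / mE n E0 := by positivity
    rw [show 2 / mE n E0 = 2 * (1 / mE n E0) by ring]; linarith
  have hB' := hB
  unfold pot at hB'
  rw [← hEdef, ← hmdef] at hB'
  have p1 : 0 ≤ 1000000 * (Real.log E / L + 25015002 * L * (2 / mE n E0 - 1 / m)) := by positivity
  have p2 : 0 ≤ 300000 * E / ((n : ℝ) ^ 2 * L ^ 2) := by positivity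
  have p3 : 0 ≤ Lam G / L := div_nonneg (Lam_nonneg G) hL.le
  have p4 : 0 ≤ (m / L) ^ 2 * max 0 (mu G - eta L G) ^ 2 := by positivity
  have p5 : 0 ≤ (m / L) ^ 2 * max 0 (-mu G - eta L G) ^ 2 := by positivity
  have hLam : Lam G < L := by
    have : Lam G / L < 1 := by linarith
    rwa [div_lt_one hL] at this
  have side : ∀ x : ℝ, (m / L) ^ 2 * max 0 (x - eta L G) ^ 2 < 1 → x < 5001 * L / m := by
    intro x hx
    rw [← mul_pow] at hx
    have h := abs_lt.1 ((sq_lt_one_iff_abs_lt_one _).1 hx)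
    have h2 : max 0 (x - eta L G) < L / m := by
      rw [lt_div_iff₀ hm]
      have e : m / L * max 0 (x - eta L G) * L = max 0 (x - eta L G) * m := by field_simp
      nlinarith [mul_lt_mul_of_pos_right h.2 hL]
    have : x - eta L G < L / m := lt_of_le_of_lt (le_max_right _ _) h2
    rw [eta, ← hmdef] at this
    rw [show 5001 * L / m = 5000 * L / m + L / m by ring]; linarith
  have hmu : |mu G| ≤ 5001 * L / m := abs_le.2
    ⟨by linarith [side (-mu G) (by linarith)], (side (mu G) (by linarith)).le⟩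
  have hsmall : 5001 * L / m ≤ 1 / 20000 := by rw [div_le_iff₀ hm]; linarith
  have hgood : Good G := by
    refine ⟨by linarith [hp.n_two], hEdef ▸ hE30, hmdef ▸ (by linarith), hmdef ▸ hmn, ?_, ?_, ?_⟩
    · rw [← hmdef]; linarith [hp.E0_n]
    · have : m / E * Phi G < L := by
        have := hLam; rwa [Lam, ← hEdef, ← hmdef] at this
      rw [← hEdef]
      have h2 : m * Phi G < L * E := by
        have := mul_lt_mul_of_pos_right this hE0
        rw [div_mul_eq_mul_div, div_mul_cancel₀ _ hE0.ne'] at this; exact this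
      have hΦ : 0 ≤ Phi G := sum_nonneg fun e _ => φ_nonneg _
      by_contra hc
      nlinarith [mul_le_mul_of_nonneg_left (not_le.1 hc).le hm.le,
        mul_le_mul_of_nonneg_right (show L ≤ m by linarith) hE0.le]
    · linarith
  exact ⟨hgood, hLam, hmdef ▸ hmu, hmdef ▸ hmb⟩

lemma allow_arith {E L m m' μ Λ : ℝ} (hE : 0 < E) (hm : 0 < m) (hL1 : 1 ≤ L)
    (hsmall : 5001 * L / m ≤ 1 / 20000) (hmu : |μ| ≤ 5001 * L / m) (hLam : Λ < L)
    (hinv : 1 / m + 6 / E * (1 / m) ≤ 1 / m') :
    10000 / E * (μ ^ 2 + (Λ + 1) / m) ≤ 5000 * L / m' - 5000 * L / m := by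
  have hL : 0 < L := by linarith
  have h1 : μ ^ 2 ≤ L / m := by
    calc μ ^ 2 = |μ| * |μ| := by rw [← sq, sq_abs]
      _ ≤ 1 / 20000 * (5001 * L / m) := mul_le_mul (hmu.trans hsmall) hmu (abs_nonneg _) (by norm_num)
      _ = 5001 / 20000 * (L / m) := by ring
      _ ≤ _ := by nlinarith [div_nonneg hL.le hm.le]
  have h2 : (Λ + 1) / m ≤ 2 * L / m := div_le_div_of_nonneg_right (by linarith) hm.le
  calc _ ≤ 10000 / E * (3 * L / m) := by
        refine mul_le_mul_of_nonneg_left ?_ (by positivity)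
        rw [show 3 * L / m = L / m + 2 * L / m by ring]; linarith
    _ = 5000 * L * (6 / E * (1 / m)) := by ring
    _ ≤ 5000 * L * (1 / m' - 1 / m) := by
        refine mul_le_mul_of_nonneg_left ?_ (by positivity); linarith
    _ = _ := by ring

lemma potential_arith {E L m μ Λ : ℝ} (hE : 0 < E) (hm : 0 < m) (hL : 0 < L)
    (hmu : |μ| ≤ 5001 * L / m) (hLam : Λ < L) (hΛ : 0 ≤ Λ) :
    1000000 / E * (|μ| * Λ + μ ^ 2 * m + 1) / L ≤
      1000000 * (3 / E / L + 25015002 * L * (6 / E * (1 / m))) := by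
  have h1 : |μ| * Λ ≤ 5001 * L / m * L :=
    mul_le_mul hmu hLam.le hΛ (by positivity)
  have h2 : μ ^ 2 * m ≤ 5001 * L / m * (5001 * L) := by
    calc μ ^ 2 * m = |μ| * |μ| * m := by rw [← sq, sq_abs]
      _ ≤ 5001 * L / m * (5001 * L / m) * m := by gcongr
      _ = _ := by field_simp
  calc 1000000 / E * (|μ| * Λ + μ ^ 2 * m + 1) / L
      ≤ 1000000 / E * (5001 * L / m * L + 5001 * L / m * (5001 * L) + 1) / L := by gcongr
    _ = 1000000 * (1 / E / L + 25015002 * L * (1 / E * (1 / m))) := by field_simp; ring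
    _ ≤ _ := by
        have a : 1 / E / L ≤ 3 / E / L := by gcongr; norm_num
        have b : 1 / E * (1 / m) ≤ 6 / E * (1 / m) := by gcongr; norm_num
        nlinarith [mul_le_mul_of_nonneg_left b (show 0 ≤ 25015002 * L by positivity)]

/-- One step of the induction: the potential is a supermartingale while below one. -/
lemma Params.step (hp : Params n E0 L) {G : Finset (Sym2 (Fin n))} (hG : G ⊆ completeEdges n)
    (hE : E0 < (G.card : ℝ)) (hB : pot E0 L G < 1) :
    triangles G ≠ ∅ ∧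
      ∑ t ∈ triangles G, pot E0 L (G \ edgesOf t) ≤ (triangles G).card * pot E0 L G := by
  obtain ⟨hgood, hLam, hmu, hmb⟩ := hp.good_of_lt hG hE hB
  obtain ⟨hm, hm0, hmn⟩ := hp.state hG hE
  obtain ⟨E, hEdef⟩ : ∃ E : ℝ, E = G.card := ⟨_, rfl⟩
  obtain ⟨m, hmdef⟩ : ∃ m : ℝ, m = mG G := ⟨_, rfl⟩
  have hL1 := hp.L_one
  have hL : 0 < L := by linarith
  rw [← hmdef] at hm hm0 hmn hmu hmb
  have hE30 : 30 ≤ E := by rw [hEdef]; linarith [hp.E0_big]
  have hE0 : 0 < E := by linarith
  have hsmall : 5001 * L / m ≤ 1 / 20000 := by rw [div_le_iff₀ hm]; linarith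
  have hT := hgood.Tpos
  have hne : triangles G ≠ ∅ := fun h => by rw [h] at hT; simp at hT
  refine ⟨hne, ?_⟩
  obtain ⟨T, hTdef⟩ : ∃ T : ℝ, T = (triangles G).card := ⟨_, rfl⟩
  rw [← hTdef] at hT ⊢
  obtain ⟨m', hm'def⟩ : ∃ m' : ℝ, m' = m * (1 - 3 / E) ^ 2 := ⟨_, rfl⟩
  obtain ⟨hq1, hq2, hq3, hq4⟩ := q_bounds hE30
  have h3E : 3 / E ≤ 1 / 10 := by rw [div_le_iff₀ hE0]; linarith
  have h3E0 : 0 ≤ 3 / E := by positivity
  have hm'pos : 0 < m' := by
    rw [hm'def]
    have : 0 < 1 - 3 / E := by linarith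
    positivity
  have hm'le : m' ≤ m := by
    rw [hm'def]
    exact mul_le_of_le_one_right hm.le (pow_le_one₀ (by linarith) (by linarith))
  have hinv : 1 / m + 6 / E * (1 / m) ≤ 1 / m' := by
    rw [hm'def, show 1 / (m * (1 - 3 / E) ^ 2) = 1 / m * (1 / (1 - 3 / E) ^ 2) by
      rw [one_div_mul_one_div]]
    nlinarith [mul_le_mul_of_nonneg_left hq1 (show 0 ≤ 1 / m by positivity)]
  have hlogstep : Real.log (E - 3) + 3 / E ≤ Real.log E := by
    have h := Real.log_le_sub_one_of_pos (show 0 < (E - 3) / E by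
      have : 0 < E - 3 := by linarith
      positivity)
    rw [Real.log_div (by linarith) hE0.ne', sub_div, div_self hE0.ne'] at h
    linarith
  obtain ⟨d1, d2⟩ := mu_drift hgood
  rw [← hTdef, ← hEdef, ← hmdef] at d1 d2
  -- the drift of the triangle count is absorbed by the growth of the allowance
  have hallow := allow_arith hE0 hm hL1 hsmall hmu hLam hinv
  have hd : |∑ t ∈ triangles G, (mu (G \ edgesOf t) - mu G)| ≤
      T * (5000 * L / m' - 5000 * L / m) := d1.trans (mul_le_mul_of_nonneg_left hallow hT.le)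
  have hs : (triangles G).Nonempty := Finset.nonempty_iff_ne_empty.2 hne
  have heta : ∀ t ∈ triangles G, eta L (G \ edgesOf t) = 5000 * L / m' ∧
      mG (G \ edgesOf t) = m' ∧ ((G \ edgesOf t).card : ℝ) = E - 3 := by
    intro t ht
    have : mG (G \ edgesOf t) = m' := by
      rw [mG_sdiff hgood.Epos.ne' ht, ← hEdef, ← hmdef, hm'def]
    exact ⟨by rw [eta, this], this, by rw [card_sdiff_edgesOf ht, hEdef]⟩
  have up : ∑ t ∈ triangles G, max 0 (mu (G \ edgesOf t) - 5000 * L / m') ^ 2 ≤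
      T * max 0 (mu G - eta L G) ^ 2 + T * (100000 * n / (E ^ 2 * m)) := by
    refine (sum_max_sq _ hs (fun t => mu (G \ edgesOf t) - mu G) (mu G - eta L G)
      (5000 * L / m' - 5000 * L / m) _ (fun t _ => le_of_eq ?_) ?_).trans ?_
    · rw [eta, ← hmdef]; ring
    · rw [← hTdef]; exact (le_abs_self _).trans hd
    · rw [← hTdef]; linarith
  have down : ∑ t ∈ triangles G, max 0 (-mu (G \ edgesOf t) - 5000 * L / m') ^ 2 ≤
      T * max 0 (-mu G - eta L G) ^ 2 + T * (100000 * n / (E ^ 2 * m)) := by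
    refine (sum_max_sq _ hs (fun t => -(mu (G \ edgesOf t) - mu G)) (-mu G - eta L G)
      (5000 * L / m' - 5000 * L / m) _ (fun t _ => le_of_eq ?_) ?_).trans ?_
    · rw [eta, ← hmdef]; ring
    · rw [← hTdef, sum_neg_distrib]; exact (neg_le_abs _).trans hd
    · rw [← hTdef]; simp only [neg_sq]; linarith
  have lam := lam_drift hgood
  rw [← hTdef, ← hEdef, ← hmdef] at lam
  have lam' : ∑ t ∈ triangles G, Lam (G \ edgesOf t) / L ≤
      T * (Lam G / L + 1000000 * (3 / E / L + 25015002 * L * (6 / E * (1 / m)))) := by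
    rw [← sum_div]
    refine (div_le_div_of_nonneg_right lam hL.le).trans (le_of_le_of_eq ?_ rfl)
    rw [mul_div_assoc, add_div]
    refine mul_le_mul_of_nonneg_left (add_le_add le_rfl ?_) hT.le
    exact potential_arith hE0 hm hL hmu hLam (Lam_nonneg G)
  -- collect
  have expand : ∀ t ∈ triangles G, pot E0 L (G \ edgesOf t) ≤
      Lam (G \ edgesOf t) / L + (1000000 * (Real.log (E - 3) / L +
        25015002 * L * (2 / mE n E0 - 1 / m')) + 300000 * (E - 3) / ((n : ℝ) ^ 2 * L ^ 2)) +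
      (m / L) ^ 2 * (max 0 (mu (G \ edgesOf t) - 5000 * L / m') ^ 2 +
        max 0 (-mu (G \ edgesOf t) - 5000 * L / m') ^ 2) := by
    intro t ht
    obtain ⟨a, b, c⟩ := heta t ht
    rw [pot, a, b, c, add_assoc (Lam (G \ edgesOf t) / L)]
    gcongr
  refine (sum_le_sum expand).trans ?_
  rw [sum_add_distrib, sum_add_distrib, sum_const, nsmul_eq_mul, ← mul_sum, sum_add_distrib,
    ← hTdef]
  rw [pot, ← hEdef, ← hmdef]
  have hw : (m / L) ^ 2 * (100000 * n / (E ^ 2 * m)) = 400000 / ((n : ℝ) ^ 2 * L ^ 2) := by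
    have hn : (n : ℝ) ≠ 0 := by
      have := hp.n_two
      exact_mod_cast (by omega : n ≠ 0)
    have e : m = 4 * E ^ 2 / (n : ℝ) ^ 3 := by rw [hmdef, mG, mE, hEdef]
    rw [show (m / L) ^ 2 * (100000 * n / (E ^ 2 * m)) = m * (100000 * n) / (L ^ 2 * E ^ 2) by
      field_simp, e]
    field_simp
    ring
  have c1 : 3 / E / L + Real.log (E - 3) / L ≤ Real.log E / L := by
    rw [← add_div]; exact div_le_div_of_nonneg_right (by linarith) hL.le
  have c2 : 25015002 * L * (2 / mE n E0 - 1 / m') + 25015002 * L * (6 / E * (1 / m)) ≤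
      25015002 * L * (2 / mE n E0 - 1 / m) := by
    rw [← mul_add]; exact mul_le_mul_of_nonneg_left (by linarith) (by positivity)
  have c3 : 300000 * (E - 3) / ((n : ℝ) ^ 2 * L ^ 2) + 2 * (400000 / ((n : ℝ) ^ 2 * L ^ 2)) ≤
      300000 * E / ((n : ℝ) ^ 2 * L ^ 2) := by
    rw [← mul_div_assoc, ← add_div]
    exact div_le_div_of_nonneg_right (by linarith) (by positivity)
  have u := mul_le_mul_of_nonneg_left (add_le_add up down) (sq_nonneg (m / L))
  have e : (m / L) ^ 2 * (T * max 0 (mu G - eta L G) ^ 2 + T * (100000 * n / (E ^ 2 * m)) +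
      (T * max 0 (-mu G - eta L G) ^ 2 + T * (100000 * n / (E ^ 2 * m)))) =
      T * ((m / L) ^ 2 * (max 0 (mu G - eta L G) ^ 2 + max 0 (-mu G - eta L G) ^ 2) +
        2 * ((m / L) ^ 2 * (100000 * n / (E ^ 2 * m)))) := by ring
  rw [e, hw] at u
  refine (add_le_add (add_le_add lam' le_rfl) u).trans ?_
  rw [← mul_add, ← mul_add]
  exact mul_le_mul_of_nonneg_left (by linarith) hT.le

theorem Params.tail_le (hp : Params n E0 L) (G : Finset (Sym2 (Fin n)))
    (hG : G ⊆ completeEdges n) :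
    Ev (tail E0) G ≤ if E0 < (G.card : ℝ) then pot E0 L G else 0 := by
  induction hk : G.card using Nat.strong_induction_on generalizing G with
  | _ k ih =>
    subst hk
    by_cases hE : E0 < (G.card : ℝ)
    · rw [if_pos hE]
      rcases le_or_gt 1 (pot E0 L G) with hB | hB
      · refine le_trans ?_ hB
        refine (le_abs_self _).trans (abs_Ev_le (fun H => ?_) G)
        unfold tail; split_ifs <;> norm_num
      obtain ⟨hne, hsum⟩ := hp.step hG hE hB
      have hc : (0 : ℝ) < (triangles G).card := by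
        exact_mod_cast card_pos.2 (Finset.nonempty_iff_ne_empty.2 hne)
      rw [Ev_of_nonempty hne, div_le_iff₀ hc]
      refine (sum_le_sum fun t ht => ?_).trans (hsum.trans_eq (mul_comm _ _))
      have hsub : G \ edgesOf t ⊆ completeEdges n := sdiff_subset.trans hG
      refine (ih _ (card_sdiff_lt_of_triangle ht) _ hsub rfl).trans ?_
      split_ifs with h
      · exact le_rfl
      · obtain ⟨hm, hm0, _⟩ := hp.state hG hE
        have hE30 : 30 ≤ (G.card : ℝ) := by linarith [hp.E0_big]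
        refine hp.pot_nonneg ?_ ?_
        · rw [mG_sdiff (by linarith) ht]
          obtain ⟨x, hx, hx0, hx1⟩ : ∃ x, x = 3 / (G.card : ℝ) ∧ 0 ≤ x ∧ x ≤ 1 / 10 :=
            ⟨_, rfl, by positivity, by rw [div_le_iff₀ (by linarith)]; linarith⟩
          rw [← hx]; nlinarith [mul_le_mul_of_nonneg_left (show 1 / 2 ≤ (1 - x) ^ 2 by nlinarith) hm.le]
        · rw [card_sdiff_edgesOf ht]; linarith
    · rw [if_neg hE]
      by_cases hne : triangles G = ∅
      · rw [Ev_of_empty hne, tail, if_neg hE]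
      · have hc : (0 : ℝ) < (triangles G).card := by
          exact_mod_cast card_pos.2 (Finset.nonempty_iff_ne_empty.2 hne)
        rw [Ev_of_nonempty hne, div_le_iff₀ hc, zero_mul]
        refine sum_nonpos fun t ht => ?_
        refine (ih _ (card_sdiff_lt_of_triangle ht) _ (sdiff_subset.trans hG) rfl).trans ?_
        rw [if_neg]
        rw [card_sdiff_edgesOf ht]; linarith [not_lt.1 hE]

lemma triangles_complete (n : ℕ) :
    triangles (completeEdges n) = (univ : Finset (Fin n)).powersetCard 3 := by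
  refine filter_true_of_mem fun u _ => ?_
  intro e he
  simp only [edgesOf, mem_filter] at he
  exact mem_filter.2 ⟨mem_univ _, he.2⟩

lemma cod_complete {e : Sym2 (Fin n)} (he : e ∈ completeEdges n) :
    (cod (completeEdges n) e : ℝ) = (n : ℝ) - 2 := by
  induction e using Sym2.ind with
  | _ a b =>
    have hab : a ≠ b := by simpa [completeEdges] using he
    have h : {u ∈ triangles (completeEdges n) | s(a, b) ∈ edgesOf u} =
        ((univ : Finset (Fin n)) \ {a, b}).image fun x => ({a, b, x} : Finset (Fin n)) := by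
      ext u
      simp only [triangles_complete, mem_filter, mem_powersetCard, subset_univ, true_and,
        mem_image, mem_sdiff, mem_univ, edgesOf, Finset.mem_sym2_iff, Sym2.mem_iff,
        forall_eq_or_imp, forall_eq, Sym2.mk_isDiag_iff, mem_insert, mem_singleton, not_or]
      constructor
      · rintro ⟨hc, ⟨⟨ha, hb⟩, _⟩⟩
        obtain ⟨x, hx, hxab⟩ : ∃ x ∈ u, x ∉ ({a, b} : Finset (Fin n)) := by
          refine exists_mem_notMem_of_card_lt_card ?_
          rw [card_pair hab, hc]; norm_num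
        simp only [mem_insert, mem_singleton, not_or] at hxab
        refine ⟨x, hxab, Finset.eq_of_subset_of_card_le ?_ ?_⟩
        · intro y hy
          simp only [mem_insert, mem_singleton] at hy
          rcases hy with rfl | rfl | rfl
          exacts [ha, hb, hx]
        · rw [hc, card_insert_of_notMem (by simp [hab, Ne.symm hxab.1]),
            card_pair (Ne.symm hxab.2)]
      · rintro ⟨x, ⟨hxa, hxb⟩, rfl⟩
        refine ⟨?_, ⟨by simp, by simp⟩, hab⟩
        rw [card_insert_of_notMem (by simp [hab, Ne.symm hxa]), card_pair (Ne.symm hxb)]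
    have hinj : Set.InjOn (fun x => ({a, b, x} : Finset (Fin n)))
        ↑((univ : Finset (Fin n)) \ {a, b}) := by
      intro x hx y hy hxy
      simp only [coe_sdiff, coe_univ, Set.mem_sdiff, Set.mem_univ, true_and, mem_coe, mem_insert,
        mem_singleton, not_or] at hx hy
      have : x ∈ ({a, b, y} : Finset (Fin n)) := by
        simp only at hxy
        rw [← hxy]; simp
      simp only [mem_insert, mem_singleton, hx.1, hx.2, false_or] at this
      exact this
    rw [cod, h, card_image_of_injOn hinj, card_sdiff_of_subset (subset_univ _), card_univ,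
      Fintype.card_fin, card_pair hab]
    have : 2 ≤ n := by
      have := card_le_card (subset_univ ({a, b} : Finset (Fin n)))
      rw [card_pair hab] at this; simpa using this
    push_cast [Nat.cast_sub this]; ring

lemma Params.pot_complete (hp : Params n E0 L) :
    pot E0 L (completeEdges n) ≤ 1 / L + 1000000 * (2 * Real.log n / L + 25015002 * (L * (2 / mE n E0)))
      + 150000 / L ^ 2 := by
  have hn2 : (2 : ℝ) ≤ n := by exact_mod_cast hp.n_two
  obtain ⟨N, hN⟩ : ∃ N : ℝ, N = (n : ℝ) * ((n : ℝ) - 1) / 2 := ⟨_, rfl⟩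
  have hNc : ((completeEdges n).card : ℝ) = N := by rw [hN]; exact card_completeEdges n
  have hN1 : 1 ≤ N := by rw [hN]; nlinarith
  have hL : 0 < L := by linarith [hp.L_one]
  have hm : mG (completeEdges n) = ((n : ℝ) - 1) ^ 2 / n := by
    rw [mG, mE, hNc, hN]; field_simp; ring
  have hmpos : 0 < mG (completeEdges n) := by
    have h1 : (0 : ℝ) < (n : ℝ) - 1 := by linarith
    rw [hm]; positivity
  have hd : ∀ e ∈ completeEdges n, dev (completeEdges n) e = -1 / ((n : ℝ) - 1) ^ 2 := by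
    intro e he
    have h1 : (n : ℝ) - 1 ≠ 0 := by linarith
    rw [dev, cod_complete he, hm]; field_simp; ring
  obtain ⟨z, hz⟩ : ∃ z : ℝ, z = -1 / ((n : ℝ) - 1) ^ 2 := ⟨_, rfl⟩
  have hz0 : -1 ≤ z ∧ z ≤ 0 := by
    rw [hz, neg_div]
    have h1 : (1 : ℝ) ≤ ((n : ℝ) - 1) ^ 2 := one_le_pow₀ (by linarith)
    have : 1 / ((n : ℝ) - 1) ^ 2 ≤ 1 := (div_le_one (by linarith)).2 h1
    have : 0 ≤ 1 / ((n : ℝ) - 1) ^ 2 := by positivity
    constructor <;> linarith
  have hφ : φ z ≤ z ^ 2 := by
    rcases eq_or_lt_of_le hz0.2 with h | h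
    · simp [h, φ]
    · rw [φ, if_neg (not_le.2 h)]; exact div_le_self (sq_nonneg _) (by linarith)
  have hΛ : Lam (completeEdges n) ≤ 1 := by
    rw [Lam, Phi, sum_congr rfl fun e he => by rw [hd e he, ← hz], sum_const, nsmul_eq_mul, hNc]
    calc mG (completeEdges n) / N * (N * φ z) = mG (completeEdges n) * φ z := by field_simp
      _ ≤ mG (completeEdges n) * z ^ 2 := mul_le_mul_of_nonneg_left hφ hmpos.le
      _ = 1 / ((n : ℝ) * ((n : ℝ) - 1) ^ 2) := by
          have : (n : ℝ) - 1 ≠ 0 := by linarith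
          rw [hm, hz]; field_simp
      _ ≤ 1 := by
          have h1 : (1 : ℝ) ≤ ((n : ℝ) - 1) ^ 2 := one_le_pow₀ (by linarith)
          exact (div_le_one (by nlinarith)).2 (by nlinarith)
  have hmu : mu (completeEdges n) = z := by
    have hT : 3 * ((triangles (completeEdges n)).card : ℝ) = N * ((n : ℝ) - 2) := by
      rw [← sum_cod, sum_congr rfl fun e he => cod_complete he, sum_const, nsmul_eq_mul, hNc]
    have : (n : ℝ) - 1 ≠ 0 := by linarith
    have : N ≠ 0 := by linarith
    rw [mu, hT, hNc, hm, hz]; field_simp; ring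
  have heta : |z| ≤ eta L (completeEdges n) := by
    rw [abs_of_nonpos hz0.2, eta, hm, hz]
    have h1 : (0 : ℝ) < (n : ℝ) - 1 := by linarith
    rw [div_div_eq_mul_div, ← neg_div, neg_neg, div_le_div_iff_of_pos_right (by positivity)]
    nlinarith [hp.L_one]
  have hpos : max 0 (mu (completeEdges n) - eta L (completeEdges n)) = 0 ∧
      max 0 (-mu (completeEdges n) - eta L (completeEdges n)) = 0 := by
    have := abs_le.1 heta
    rw [hmu]; exact ⟨max_eq_left (by linarith), max_eq_left (by linarith)⟩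
  rw [pot, hpos.1, hpos.2, hNc]
  have hlog : Real.log N ≤ 2 * Real.log n := by
    rw [two_mul, ← Real.log_mul (by linarith) (by linarith)]
    exact Real.log_le_log (by linarith) (by rw [hN]; nlinarith)
  have h1 : Lam (completeEdges n) / L ≤ 1 / L := div_le_div_of_nonneg_right hΛ hL.le
  have h2 : Real.log N / L ≤ 2 * Real.log n / L := div_le_div_of_nonneg_right hlog hL.le
  have h3 : 25015002 * L * (2 / mE n E0 - 1 / mG (completeEdges n)) ≤
      25015002 * (L * (2 / mE n E0)) := by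
    rw [mul_assoc]
    refine mul_le_mul_of_nonneg_left (mul_le_mul_of_nonneg_left ?_ hL.le) (by norm_num)
    have : 0 ≤ 1 / mG (completeEdges n) := by positivity
    linarith
  have h4 : 300000 * N / ((n : ℝ) ^ 2 * L ^ 2) ≤ 150000 / L ^ 2 := by
    rw [div_le_div_iff₀ (by positivity) (by positivity), hN]
    nlinarith [mul_le_mul_of_nonneg_left (show (n : ℝ) * ((n : ℝ) - 1) ≤ (n : ℝ) ^ 2 by nlinarith)
      (show 0 ≤ 150000 * L ^ 2 by positivity)]
  simp only [ne_eq, OfNat.ofNat_ne_zero, not_false_eq_true, zero_pow, add_zero, mul_zero]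
  linarith

end Vale.Agent.P046.Track
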