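import Mathlib

/-!
The random triangle removal process, as the average over the next removed triangle.
-/

namespace Vale.Agent.P046.Track

open Finset
open scoped Classical

variable {n : ℕ}

/-- The three edges spanned by a set of three vertices. -/
noncomputable def edgesOf (T : Finset (Fin n)) : Finset (Sym2 (Fin n)) :=
  T.sym2.filter fun e => ¬ e.IsDiag

/-- The edges of the complete graph on `Fin n`. -/
noncomputable def completeEdges (n : ℕ) : Finset (Sym2 (Fin n)) :=
  Finset.univ.filter fun e => ¬ e.IsDiag

/-- The triangles of an edge set: three vertices with all three edges present. -/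
noncomputable def triangles (G : Finset (Sym2 (Fin n))) : Finset (Finset (Fin n)) :=
  (Finset.univ.powersetCard 3).filter fun T => edgesOf T ⊆ G

lemma edgesOf_nonempty {T : Finset (Fin n)} (h : T.card = 3) : (edgesOf T).Nonempty := by
  obtain ⟨a, ha, b, hb, hab⟩ := Finset.one_lt_card.1 (by omega : 1 < T.card)
  exact ⟨s(a, b), by simp [edgesOf, Finset.mem_sym2_iff, ha, hb, hab]⟩

lemma card_sdiff_lt_of_triangle {G : Finset (Sym2 (Fin n))} {T : Finset (Fin n)}
    (h : T ∈ triangles G) : (G \ edgesOf T).card < G.card := by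
  simp only [triangles, Finset.mem_filter, Finset.mem_powersetCard] at h
  obtain ⟨e, he⟩ := edgesOf_nonempty h.1.2
  exact Finset.card_lt_card ⟨Finset.sdiff_subset, fun hh => (Finset.mem_sdiff.1 (hh (h.2 he))).2 he⟩

/-- The expectation of `φ` of the final edge set when triangles, chosen uniformly among those
of the current edge set, are removed until none is left. -/
noncomputable def Ev (φ : Finset (Sym2 (Fin n)) → ℝ) (G : Finset (Sym2 (Fin n))) : ℝ :=
  if triangles G = ∅ then φ G
  else (∑ T ∈ (triangles G).attach, Ev φ (G \ edgesOf T.1)) / (triangles G).card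
termination_by G.card
decreasing_by exact card_sdiff_lt_of_triangle T.2

lemma Ev_of_empty {φ : Finset (Sym2 (Fin n)) → ℝ} {G : Finset (Sym2 (Fin n))}
    (h : triangles G = ∅) : Ev φ G = φ G := by
  rw [Ev, if_pos h]

lemma Ev_of_nonempty {φ : Finset (Sym2 (Fin n)) → ℝ} {G : Finset (Sym2 (Fin n))}
    (h : triangles G ≠ ∅) :
    Ev φ G = (∑ T ∈ triangles G, Ev φ (G \ edgesOf T)) / (triangles G).card := by
  rw [Ev, if_neg h, Finset.sum_attach (triangles G) fun T => Ev φ (G \ edgesOf T)]

lemma abs_Ev_le {φ : Finset (Sym2 (Fin n)) → ℝ} {B : ℝ} (hφ : ∀ G, |φ G| ≤ B)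
    (G : Finset (Sym2 (Fin n))) : |Ev φ G| ≤ B := by
  induction hk : G.card using Nat.strong_induction_on generalizing G with
  | _ k ih =>
    by_cases h : triangles G = ∅
    · rw [Ev_of_empty h]; exact hφ G
    · have hc : (0 : ℝ) < (triangles G).card := by
        exact_mod_cast Finset.card_pos.2 (Finset.nonempty_iff_ne_empty.2 h)
      rw [Ev_of_nonempty h, abs_div, abs_of_pos hc, div_le_iff₀ hc]
      refine (Finset.abs_sum_le_sum_abs _ _).trans ?_
      refine (Finset.sum_le_card_nsmul _ _ B fun T hT => ?_).trans (le_of_eq ?_)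
      · exact ih _ (hk ▸ card_sdiff_lt_of_triangle hT) _ rfl
      · rw [nsmul_eq_mul, mul_comm]

end Vale.Agent.P046.Track
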