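import Mathlib

/-!
An explicit potential `φ d`, comparable with `d^2`, for relative codegree deviations `d`,
and the pointwise three-edge inequality that makes its drift neutral.
-/

namespace Vale.Agent.P046.Track

/-- `ρ d = 1 - 1/(1+d)^2`. -/
noncomputable def ρ (d : ℝ) : ℝ := d * (2 + d) / (1 + d) ^ 2

/-- The potential of a relative deviation `d ≥ -1`. -/
noncomputable def φ (d : ℝ) : ℝ :=
  if 0 ≤ d then d ^ 2 * (31 / 32 / (1 + d) + 1 / 32) else d ^ 2 / (1 - 3 * d)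

/-- The derivative of `φ`. -/
noncomputable def ψ (d : ℝ) : ℝ :=
  if 0 ≤ d then 31 / 32 * ρ d + d / 16 else d * (2 - 3 * d) / (1 - 3 * d) ^ 2

/-- The negative part of the derivative. -/
noncomputable def κ (e : ℝ) : ℝ := e * (2 + 3 * e) / (1 + 3 * e) ^ 2

lemma ψ_neg_eq {e : ℝ} (he : 0 ≤ e) : ψ (-e) = -κ e := by
  rcases eq_or_lt_of_le he with rfl | h
  · simp [ψ, κ, ρ]
  · rw [ψ, if_neg (by linarith), κ]; ring

lemma φ_nonneg (d : ℝ) : 0 ≤ φ d := by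
  unfold φ
  split_ifs with h
  · positivity
  · replace h := not_le.1 h
    have : 0 < 1 - 3 * d := by linarith
    positivity

lemma sq_le_φ {d : ℝ} (hd : -1 ≤ d) : d ^ 2 ≤ 32 * φ d := by
  unfold φ
  split_ifs with h
  · have : 0 ≤ 31 / 32 / (1 + d) := by positivity
    nlinarith [sq_nonneg d, mul_nonneg (sq_nonneg d) this]
  · replace h := not_le.1 h
    have h3 : 0 < 1 - 3 * d := by linarith
    rw [← mul_div_assoc, le_div_iff₀ h3]
    nlinarith [sq_nonneg d]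

lemma ρ_nonneg {d : ℝ} (hd : 0 ≤ d) : 0 ≤ ρ d := by unfold ρ; positivity

lemma ρ_le {d : ℝ} (hd : 0 ≤ d) : ρ d ≤ 2 * d := by
  rw [ρ, div_le_iff₀ (by positivity)]
  nlinarith [mul_nonneg hd hd, mul_nonneg (mul_nonneg hd hd) hd]

lemma ρ_mono {a b : ℝ} (ha : 0 ≤ a) (hab : a ≤ b) : ρ a ≤ ρ b := by
  have h : ∀ x : ℝ, 0 ≤ x → ρ x = 1 - 1 / (1 + x) ^ 2 := fun x hx => by
    have : 1 + x ≠ 0 := by linarith
    unfold ρ; field_simp; ring
  rw [h a ha, h b (ha.trans hab)]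
  gcongr

lemma κ_nonneg {e : ℝ} (he : 0 ≤ e) : 0 ≤ κ e := by unfold κ; positivity

lemma two_sub_κ {e : ℝ} (he : 0 ≤ e) :
    2 * e - κ e = 9 * e ^ 2 * (1 + 2 * e) / (1 + 3 * e) ^ 2 := by
  have : 1 + 3 * e ≠ 0 := by linarith
  unfold κ; field_simp; ring

lemma abs_ψ_le {d : ℝ} (hd : -1 ≤ d) : |ψ d| ≤ 2 * |d| := by
  rcases le_or_gt 0 d with h | h
  · rw [ψ, if_pos h, abs_of_nonneg h, abs_of_nonneg (by have := ρ_nonneg h; positivity)]
    linarith [ρ_le h, ρ_nonneg h]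
  · obtain ⟨e, rfl, he⟩ : ∃ e, d = -e ∧ 0 ≤ e := ⟨-d, by ring, by linarith⟩
    rw [ψ_neg_eq he, abs_neg, abs_neg, abs_of_nonneg he, abs_of_nonneg (κ_nonneg he)]
    have := two_sub_κ he
    have : 0 ≤ 9 * e ^ 2 * (1 + 2 * e) / (1 + 3 * e) ^ 2 := by positivity
    linarith

lemma abs_ψ_sub_le {d : ℝ} (hd : -1 ≤ d) : |ψ d - 2 * d| ≤ 288 * φ d := by
  have hφ := sq_le_φ hd
  refine le_trans ?_ (show 9 * d ^ 2 ≤ 288 * φ d by linarith)
  rcases le_or_gt 0 d with h | h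
  · have h1 : 2 * d - ρ d = d ^ 2 * (3 + 2 * d) / (1 + d) ^ 2 := by
      have : 1 + d ≠ 0 := by linarith
      unfold ρ; field_simp; ring
    have h2 : d ^ 2 * (3 + 2 * d) / (1 + d) ^ 2 ≤ 3 * d ^ 2 := by
      rw [div_le_iff₀ (by positivity)]
      nlinarith [mul_nonneg (sq_nonneg d) h, mul_nonneg (sq_nonneg d) (sq_nonneg d)]
    rw [ψ, if_pos h, abs_le]
    constructor <;> nlinarith [ρ_le h, sq_nonneg d]
  · obtain ⟨e, rfl, he⟩ : ∃ e, d = -e ∧ 0 ≤ e := ⟨-d, by ring, by linarith⟩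
    rw [ψ_neg_eq he, show -κ e - 2 * -e = 2 * e - κ e by ring, two_sub_κ he,
      abs_of_nonneg (by positivity), div_le_iff₀ (by positivity)]
    nlinarith [mul_nonneg (sq_nonneg e) he, mul_nonneg (sq_nonneg e) (sq_nonneg e),
      mul_nonneg (mul_nonneg (sq_nonneg e) he) (show (0 : ℝ) ≤ 1 - e by linarith), sq_nonneg e]

/-- Second-order Taylor upper bound. -/
lemma φ_taylor {a b : ℝ} (ha : -1 ≤ a) (hb : -1 ≤ b) :
    φ b ≤ φ a + ψ a * (b - a) + 3 * (b - a) ^ 2 := by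
  have cross : ∀ x : ℝ, -1 ≤ x → φ x ≤ x ^ 2 := by
    intro x hx
    unfold φ
    split_ifs with h
    · have : 31 / 32 / (1 + x) ≤ 31 / 32 := div_le_self (by norm_num) (by linarith)
      nlinarith [sq_nonneg x]
    · replace h := not_le.1 h
      exact div_le_self (sq_nonneg x) (by linarith)
  rcases le_or_gt 0 a with h | h <;> rcases le_or_gt 0 b with h' | h'
  · have h1 : 1 + a ≠ 0 := by linarith
    have h2 : 1 + b ≠ 0 := by linarith
    have key : φ b - φ a - ψ a * (b - a) =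
        (b - a) ^ 2 * (31 / 32 / ((1 + a) ^ 2 * (1 + b)) + 1 / 32) := by
      rw [φ, φ, ψ, if_pos h, if_pos h', if_pos h, ρ]; field_simp; ring
    have : 31 / 32 / ((1 + a) ^ 2 * (1 + b)) ≤ 31 / 32 := div_le_self (by norm_num) (by nlinarith)
    nlinarith [sq_nonneg (b - a)]
  · have := abs_le.1 (abs_ψ_le ha)
    rw [abs_of_nonneg h] at this
    nlinarith [cross b hb, φ_nonneg a, this.1, this.2]
  · have := abs_le.1 (abs_ψ_le ha)
    rw [abs_of_neg h] at this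
    nlinarith [cross b hb, φ_nonneg a, this.1, this.2]
  · have h1 : 1 - 3 * a ≠ 0 := by linarith
    have h2 : 1 - 3 * b ≠ 0 := by linarith
    have h1' : 1 - a * 3 ≠ 0 := by linarith
    have h2' : 1 - b * 3 ≠ 0 := by linarith
    have key : φ b - φ a - ψ a * (b - a) =
        (b - a) ^ 2 / ((1 - 3 * a) ^ 2 * (1 - 3 * b)) := by
      rw [φ, φ, ψ, if_neg (not_le.2 h), if_neg (not_le.2 h'), if_neg (not_le.2 h)]
      field_simp; ring
    have : (b - a) ^ 2 / ((1 - 3 * a) ^ 2 * (1 - 3 * b)) ≤ (b - a) ^ 2 :=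
      div_le_self (sq_nonneg _) (by nlinarith)
    nlinarith [sq_nonneg (b - a)]

/-- The contribution of one edge of a triangle that does not involve the other two. -/
noncomputable def Nd (d : ℝ) : ℝ := φ d * (1 + 1 / (1 + d)) - d * ψ d

lemma Nd_nonneg_eq {d : ℝ} (hd : 0 ≤ d) : Nd d = -(1 / 32 * (d ^ 3 / (1 + d))) := by
  have : 1 + d ≠ 0 := by linarith
  rw [Nd, φ, ψ, if_pos hd, if_pos hd, ρ]; field_simp; ring

lemma Nd_neg_eq {e : ℝ} (he : 0 ≤ e) (he1 : e < 1) :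
    Nd (-e) = 4 * e ^ 3 / ((1 - e) * (1 + 3 * e) ^ 2) := by
  have h1 : 1 - e ≠ 0 := by linarith
  have h2 : 1 + 3 * e ≠ 0 := by linarith
  have h2' : 1 + e * 3 ≠ 0 := by linarith
  have h3' : 1 - 3 * -e ≠ 0 := by linarith
  rcases eq_or_lt_of_le he with rfl | h
  · simp [Nd, φ, ψ, ρ]
  · have hf : φ (-e) = e ^ 2 / (1 + 3 * e) := by rw [φ, if_neg (by linarith)]; ring
    rw [Nd, hf, ψ_neg_eq he, κ, ← sub_eq_add_neg]
    generalize hu : 1 - e = u at *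
    generalize hv : 1 + 3 * e = v at *
    field_simp
    subst hu; subst hv; ring

lemma Nd_neg_ge {e : ℝ} (he : 0 ≤ e) (he1 : e < 1) : 5 / 4 * e ^ 3 ≤ Nd (-e) := by
  rw [Nd_neg_eq he he1, le_div_iff₀ (by have : (0:ℝ) < 1 - e := by linarith
                                        positivity)]
  have h : (1 - e) * (1 + 3 * e) ^ 2 ≤ 16 / 5 := by
    nlinarith [sq_nonneg (9 * e - 5), mul_nonneg he (sq_nonneg (9 * e - 5))]
  nlinarith [mul_le_mul_of_nonneg_left h (pow_nonneg he 3)]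

/-- The negative-deviation slack dominates the squared first-order mismatch. -/
lemma gap_le {e : ℝ} (he : 0 ≤ e) (he1 : e < 1) :
    (2 * e - κ e) ^ 2 / 4 ≤ 83 / 100 * Nd (-e) := by
  have h : 81 * (e * (1 - e)) * (1 + 2 * e) ^ 2 ≤ 83 / 100 * 16 * (1 + 3 * e) ^ 2 := by
    nlinarith [sq_nonneg (2 * e - 1), mul_nonneg he (sq_nonneg (2 * e - 1)),
      mul_nonneg he (show (0 : ℝ) ≤ 1 - e by linarith), sq_nonneg (5 * e - 2)]
  rw [two_sub_κ he, Nd_neg_eq he he1]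
  have h1 : 0 < 1 - e := by linarith
  have h2 : 0 < 1 + 3 * e := by linarith
  rw [div_pow, div_div, ← mul_div_assoc, div_le_div_iff₀ (by positivity) (by positivity)]
  nlinarith [mul_le_mul_of_nonneg_left h
    (show (0 : ℝ) ≤ e ^ 3 * (1 + 3 * e) ^ 2 by positivity)]

lemma ψ_ge_ρ {d : ℝ} (hd : 0 ≤ d) : ρ d ≤ ψ d := by
  rw [ψ, if_pos hd]; linarith [ρ_le hd]

lemma ψ_le_two {d : ℝ} (hd : 0 ≤ d) : ψ d ≤ 2 * d :=
  (le_abs_self _).trans ((abs_ψ_le (by linarith)).trans_eq (by rw [abs_of_nonneg hd]))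

lemma ψ_excess {d : ℝ} (hd : 0 ≤ d) :
    ρ d + 1 / 32 * (d ^ 2 * (3 + 2 * d) / (1 + d) ^ 2) = ψ d := by
  have : 1 + d ≠ 0 := by linarith
  rw [ψ, if_pos hd, ρ]; field_simp; ring

/-- If the total deviation is at least half of `d`, the positive excess pays for `d`. -/
lemma excess_pays {d D : ℝ} (hd : 0 ≤ d) (hD : d ≤ 2 * D) :
    1 / 32 * (d ^ 3 / (1 + d)) ≤ D * (1 / 32 * (d ^ 2 * (3 + 2 * d) / (1 + d) ^ 2)) := by
  have h : d ^ 3 / (1 + d) ≤ d / 2 * (d ^ 2 * (3 + 2 * d) / (1 + d) ^ 2) := by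
    rw [← mul_div_assoc, div_le_div_iff₀ (by linarith) (by positivity)]
    nlinarith [pow_nonneg hd 3, mul_nonneg (pow_nonneg hd 3) hd]
  have h2 : 0 ≤ d ^ 2 * (3 + 2 * d) / (1 + d) ^ 2 := by positivity
  nlinarith [mul_le_mul_of_nonneg_right (show d / 2 ≤ D by linarith) h2]

lemma cube_div_le {d : ℝ} (hd : 0 ≤ d) : d ^ 3 / (1 + d) ≤ d ^ 3 :=
  div_le_self (by positivity) (by linarith)

/-- Three nonnegative deviations. -/
lemma ineq_ppp {x y z : ℝ} (hx : 0 ≤ x) (hy : 0 ≤ y) (hz : 0 ≤ z) :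
    0 ≤ Nd x + Nd y + Nd z + (x + y + z) * (ψ x + ψ y + ψ z) := by
  rw [Nd_nonneg_eq hx, Nd_nonneg_eq hy, Nd_nonneg_eq hz, ← ψ_excess hx, ← ψ_excess hy,
    ← ψ_excess hz]
  have hs : 0 ≤ x + y + z := by linarith
  nlinarith [excess_pays hx (show x ≤ 2 * (x + y + z) by linarith),
    excess_pays hy (show y ≤ 2 * (x + y + z) by linarith),
    excess_pays hz (show z ≤ 2 * (x + y + z) by linarith),
    mul_nonneg hs (add_nonneg (add_nonneg (ρ_nonneg hx) (ρ_nonneg hy)) (ρ_nonneg hz))]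

lemma ρ_subadd {x y : ℝ} (hx : 0 ≤ x) (hy : 0 ≤ y) : ρ (x + y) ≤ ρ x + ρ y := by
  have h : ∀ z : ℝ, 0 ≤ z → ρ z = 1 - 1 / (1 + z) ^ 2 := fun z hz => by
    have : 1 + z ≠ 0 := by linarith
    unfold ρ; field_simp; ring
  rw [h x hx, h y hy, h _ (add_nonneg hx hy)]
  have h1 : (1 + x + y) ≤ (1 + x) * (1 + y) := by nlinarith [mul_nonneg hx hy]
  have h2 : 1 / ((1 + x) * (1 + y)) ^ 2 ≤ 1 / (1 + (x + y)) ^ 2 := by
    gcongr; linarith
  have a1 : 1 / (1 + x) ^ 2 ≤ 1 := (div_le_one (by positivity)).2 (by nlinarith)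
  have a2 : 1 / (1 + y) ^ 2 ≤ 1 := (div_le_one (by positivity)).2 (by nlinarith)
  have h3 : 1 / ((1 + x) * (1 + y)) ^ 2 = 1 / (1 + x) ^ 2 * (1 / (1 + y) ^ 2) := by
    rw [mul_pow, one_div_mul_one_div]
  nlinarith [mul_nonneg (sub_nonneg.2 a1) (sub_nonneg.2 a2)]

lemma κ_le_ρ {e : ℝ} (he : 0 ≤ e) : κ e ≤ ρ e := by
  rw [κ, ρ, div_le_div_iff₀ (by positivity) (by positivity)]
  nlinarith [mul_nonneg he he, pow_nonneg he 3, pow_nonneg he 4]

lemma κ_add_le {e f : ℝ} (he : 0 ≤ e) (hf : 0 ≤ f) : κ e + κ f ≤ ρ (e + f) := by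
  have hk : ∀ z : ℝ, 0 ≤ z → κ z = (1 - 1 / (1 + 3 * z) ^ 2) / 3 := fun z hz => by
    have : 1 + 3 * z ≠ 0 := by linarith
    unfold κ; field_simp; ring
  have hr : ∀ z : ℝ, 0 ≤ z → ρ z = 1 - 1 / (1 + z) ^ 2 := fun z hz => by
    have : 1 + z ≠ 0 := by linarith
    unfold ρ; field_simp; ring
  obtain ⟨q, hq, rfl⟩ : ∃ q, 0 ≤ q ∧ e + f = q := ⟨e + f, add_nonneg he hf, rfl⟩
  -- tangent of the concave function at the midpoint
  have tan : ∀ z w : ℝ, 0 ≤ z → 0 ≤ w →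
      κ z ≤ κ w + 2 / (1 + 3 * w) ^ 3 * (z - w) := by
    intro z w hz hw
    have h1 : 0 < 1 + 3 * z := by linarith
    have h2 : 0 < 1 + 3 * w := by linarith
    have key : κ w + 2 / (1 + 3 * w) ^ 3 * (z - w) - κ z =
        3 * (z - w) ^ 2 * (3 + 6 * z + 3 * w) / ((1 + 3 * z) ^ 2 * (1 + 3 * w) ^ 3) := by
      rw [hk z hz, hk w hw]; field_simp; ring
    have : 0 ≤ 3 * (z - w) ^ 2 * (3 + 6 * z + 3 * w) / ((1 + 3 * z) ^ 2 * (1 + 3 * w) ^ 3) := by
      positivity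
    linarith
  have hm : 0 ≤ (e + f) / 2 := by linarith
  have h1 := tan e _ he hm
  have h2 := tan f _ hf hm
  have h3 : 2 * κ ((e + f) / 2) ≤ ρ (e + f) := by
    have hs : 0 ≤ e + f := by linarith
    rw [κ, ρ, ← mul_div_assoc, div_le_div_iff₀ (by positivity) (by positivity)]
    nlinarith [mul_nonneg hs hs, pow_nonneg hs 3, pow_nonneg hs 4]
  have : 2 / (1 + 3 * ((e + f) / 2)) ^ 3 * (e - (e + f) / 2) +
      2 / (1 + 3 * ((e + f) / 2)) ^ 3 * (f - (e + f) / 2) = 0 := by ring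
  linarith

/-- Two nonnegative deviations and a negative one. -/
lemma ineq_ppn {x y e : ℝ} (hx : 0 ≤ x) (hy : 0 ≤ y) (he : 0 ≤ e) (he1 : e < 1) :
    0 ≤ Nd x + Nd y + Nd (-e) + (x + y - e) * (ψ x + ψ y + ψ (-e)) := by
  have hN := Nd_neg_ge he he1
  rw [Nd_nonneg_eq hx, Nd_nonneg_eq hy, ψ_neg_eq he]
  rcases le_or_gt (x + y) e with hD | hD
  · have hg := gap_le he he1
    have h1 : ψ x + ψ y - κ e ≤ 2 * (x + y) - κ e := by linarith [ψ_le_two hx, ψ_le_two hy]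
    have h2 := mul_le_mul_of_nonpos_left h1 (show x + y - e ≤ 0 by linarith)
    have hc : x ^ 3 + y ^ 3 ≤ e ^ 3 := by
      have h' : x ^ 3 + y ^ 3 ≤ (x + y) ^ 3 := by
        nlinarith [mul_nonneg (mul_nonneg hx hy) (add_nonneg hx hy)]
      exact h'.trans (pow_le_pow_left₀ (add_nonneg hx hy) hD 3)
    nlinarith [sq_nonneg (4 * (x + y) - 2 * e - κ e), cube_div_le hx, cube_div_le hy]
  · have hH : 0 ≤ ρ x + ρ y - κ e := by
      linarith [ρ_subadd hx hy, ρ_mono he hD.le, κ_le_ρ he]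
    rw [← ψ_excess hx, ← ψ_excess hy]
    have hex : ∀ d : ℝ, 0 ≤ d → 0 ≤ 1 / 32 * (d ^ 2 * (3 + 2 * d) / (1 + d) ^ 2) := fun d hd => by
      positivity
    rcases le_or_gt (x + y) (2 * e) with hb | hb
    · have hc : x ^ 3 + y ^ 3 ≤ 8 * e ^ 3 := by
        have h' : x ^ 3 + y ^ 3 ≤ (x + y) ^ 3 := by
          nlinarith [mul_nonneg (mul_nonneg hx hy) (add_nonneg hx hy)]
        have := pow_le_pow_left₀ (add_nonneg hx hy) hb 3
        nlinarith
      nlinarith [mul_nonneg (sub_nonneg.2 hD.le) hH, cube_div_le hx, cube_div_le hy,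
        mul_nonneg (sub_nonneg.2 hD.le) (hex x hx), mul_nonneg (sub_nonneg.2 hD.le) (hex y hy)]
    · nlinarith [mul_nonneg (sub_nonneg.2 hD.le) hH,
        excess_pays hx (show x ≤ 2 * (x + y - e) by linarith),
        excess_pays hy (show y ≤ 2 * (x + y - e) by linarith), pow_nonneg he 3]

/-- One nonnegative deviation and two negative ones. -/
lemma ineq_pnn {x e f : ℝ} (hx : 0 ≤ x) (he : 0 ≤ e) (he1 : e < 1) (hf : 0 ≤ f) (hf1 : f < 1) :
    0 ≤ Nd x + Nd (-e) + Nd (-f) + (x - e - f) * (ψ x + ψ (-e) + ψ (-f)) := by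
  have hNe := Nd_neg_ge he he1
  have hNf := Nd_neg_ge hf hf1
  have hu : (e + f) ^ 3 ≤ 4 * (e ^ 3 + f ^ 3) := by
    nlinarith [mul_nonneg (add_nonneg he hf) (sq_nonneg (e - f))]
  rw [Nd_nonneg_eq hx, ψ_neg_eq he, ψ_neg_eq hf]
  rcases le_or_gt x (e + f) with hD | hD
  · have hge := gap_le he he1
    have hgf := gap_le hf hf1
    have h1 : ψ x - κ e - κ f ≤ 2 * x - κ e - κ f := by linarith [ψ_le_two hx]
    have h2 := mul_le_mul_of_nonpos_left h1 (show x - e - f ≤ 0 by linarith)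
    have hc := (pow_le_pow_left₀ hx hD 3).trans hu
    nlinarith [sq_nonneg (4 * x - 2 * e - 2 * f - κ e - κ f),
      sq_nonneg ((2 * e - κ e) - (2 * f - κ f)), cube_div_le hx]
  · have hH : 0 ≤ ρ x - κ e - κ f := by
      linarith [κ_add_le he hf, ρ_mono (add_nonneg he hf) hD.le]
    rw [← ψ_excess hx]
    rcases le_or_gt x (2 * (e + f)) with hb | hb
    · have hc := pow_le_pow_left₀ hx hb 3
      have hex : 0 ≤ 1 / 32 * (x ^ 2 * (3 + 2 * x) / (1 + x) ^ 2) := by positivity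
      nlinarith [mul_nonneg (sub_nonneg.2 hD.le) hH, cube_div_le hx,
        mul_nonneg (sub_nonneg.2 hD.le) hex]
    · nlinarith [mul_nonneg (sub_nonneg.2 hD.le) hH,
        excess_pays hx (show x ≤ 2 * (x - e - f) by linarith), pow_nonneg he 3, pow_nonneg hf 3]

/-- Three negative deviations. -/
lemma ineq_nnn {e f g : ℝ} (he : 0 ≤ e) (he1 : e < 1) (hf : 0 ≤ f) (hf1 : f < 1) (hg : 0 ≤ g)
    (hg1 : g < 1) :
    0 ≤ Nd (-e) + Nd (-f) + Nd (-g) + (-e - f - g) * (ψ (-e) + ψ (-f) + ψ (-g)) := by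
  rw [ψ_neg_eq he, ψ_neg_eq hf, ψ_neg_eq hg]
  nlinarith [Nd_neg_ge he he1, Nd_neg_ge hf hf1, Nd_neg_ge hg hg1, pow_nonneg he 3,
    pow_nonneg hf 3, pow_nonneg hg 3,
    mul_nonneg (add_nonneg (add_nonneg he hf) hg)
      (add_nonneg (add_nonneg (κ_nonneg he) (κ_nonneg hf)) (κ_nonneg hg))]

/-- The pointwise inequality in deviations, for every sign pattern. -/
theorem ineq {x y z : ℝ} (hx : -1 < x) (hy : -1 < y) (hz : -1 < z) :
    0 ≤ Nd x + Nd y + Nd z + (x + y + z) * (ψ x + ψ y + ψ z) := by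
  have sw : ∀ {a : ℝ}, a < 0 → ∃ e, a = -e ∧ 0 ≤ e := fun {a} h => ⟨-a, by ring, by linarith⟩
  rcases le_or_gt 0 x with a | a <;> rcases le_or_gt 0 y with b | b <;>
    rcases le_or_gt 0 z with c | c
  · exact ineq_ppp a b c
  · obtain ⟨g, rfl, hg⟩ := sw c
    linarith [ineq_ppn a b hg (by linarith)]
  · obtain ⟨f, rfl, hf⟩ := sw b
    linarith [ineq_ppn a c hf (by linarith)]
  · obtain ⟨f, rfl, hf⟩ := sw b
    obtain ⟨g, rfl, hg⟩ := sw c
    linarith [ineq_pnn a hf (by linarith) hg (by linarith)]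
  · obtain ⟨e, rfl, he⟩ := sw a
    linarith [ineq_ppn b c he (by linarith)]
  · obtain ⟨e, rfl, he⟩ := sw a
    obtain ⟨g, rfl, hg⟩ := sw c
    linarith [ineq_pnn b he (by linarith) hg (by linarith)]
  · obtain ⟨e, rfl, he⟩ := sw a
    obtain ⟨f, rfl, hf⟩ := sw b
    linarith [ineq_pnn c he (by linarith) hf (by linarith)]
  · obtain ⟨e, rfl, he⟩ := sw a
    obtain ⟨f, rfl, hf⟩ := sw b
    obtain ⟨g, rfl, hg⟩ := sw c
    linarith [ineq_nnn he (by linarith) hf (by linarith) hg (by linarith)]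

/-- The form used in the drift computation, in the relative codegrees `a b c > 0`. -/
theorem key {a b c : ℝ} (ha : 0 < a) (hb : 0 < b) (hc : 0 < c) :
    -(φ (a - 1) / a + φ (b - 1) / b + φ (c - 1) / c) + 2 * (ψ (a - 1) + ψ (b - 1) + ψ (c - 1)) ≤
      φ (a - 1) + φ (b - 1) + φ (c - 1) +
        (ψ (a - 1) * (b + c) + ψ (b - 1) * (a + c) + ψ (c - 1) * (a + b)) := by
  have h := ineq (show -1 < a - 1 by linarith) (show -1 < b - 1 by linarith)
    (show -1 < c - 1 by linarith)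
  simp only [Nd, add_sub_cancel] at h
  linear_combination h

end Vale.Agent.P046.Track
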