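import Vale.Agent.P046.Track.Comb
import Vale.Agent.P046.Track.G

/-!
The one-step drifts of the relative triangle count and of the codegree potential.
-/

namespace Vale.Agent.P046.Track

open Finset
open scoped Classical

/-- The ideal codegree when `E` edges remain. -/
noncomputable def mE (n : ℕ) (E : ℝ) : ℝ := 4 * E ^ 2 / (n : ℝ) ^ 3

variable {n : ℕ}

/-- The ideal codegree of a state. -/
noncomputable def mG (G : Finset (Sym2 (Fin n))) : ℝ := mE n G.card

/-- The relative deviation of the codegree of `e`. -/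
noncomputable def dev (G : Finset (Sym2 (Fin n))) (e : Sym2 (Fin n)) : ℝ :=
  (cod G e : ℝ) / mG G - 1

/-- The codegree potential. -/
noncomputable def Phi (G : Finset (Sym2 (Fin n))) : ℝ := ∑ e ∈ G, φ (dev G e)

/-- The rescaled potential. -/
noncomputable def Lam (G : Finset (Sym2 (Fin n))) : ℝ := mG G / G.card * Phi G

/-- The relative deviation of the triangle count. -/
noncomputable def mu (G : Finset (Sym2 (Fin n))) : ℝ :=
  3 * (triangles G).card / (G.card * mG G) - 1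

/-- The states in which the drift estimates hold. -/
structure Good (G : Finset (Sym2 (Fin n))) : Prop where
  n_pos : 0 < n
  big : 30 ≤ (G.card : ℝ)
  m_one : 1 ≤ mG G
  m_le : mG G ≤ n
  n_le : mG G + n ≤ G.card
  phi_le : Phi G ≤ G.card
  mu_le : |mu G| ≤ 1 / 2

lemma mE_sub (n : ℕ) {E : ℝ} (hE : E ≠ 0) : mE n (E - 3) = mE n E * (1 - 3 / E) ^ 2 := by
  unfold mE; field_simp

lemma mG_sdiff {G : Finset (Sym2 (Fin n))} (hE : (G.card : ℝ) ≠ 0) {t : Finset (Fin n)}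
    (ht : t ∈ triangles G) :
    mG (G \ edgesOf t) = mG G * (1 - 3 / G.card) ^ 2 := by
  rw [mG, card_sdiff_edgesOf ht, mE_sub n hE, mG]

lemma q_bounds {E : ℝ} (hE : 30 ≤ E) :
    1 + 6 / E ≤ 1 / (1 - 3 / E) ^ 2 ∧ 1 / (1 - 3 / E) ^ 2 ≤ 1 + 6 / E + 40 / E ^ 2 ∧
      6 / E + 40 / E ^ 2 ≤ 8 / E ∧ 8 / E ≤ 1 / 3 := by
  have h0 : 0 < E := by linarith
  obtain ⟨x, hx, hx0, hx1⟩ : ∃ x, x = 1 / E ∧ 0 ≤ x ∧ x ≤ 1 / 30 :=
    ⟨1 / E, rfl, by positivity, one_div_le_one_div_of_le (by norm_num) hE⟩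
  have e3 : 3 / E = 3 * x := by subst hx; ring
  have e6 : 6 / E = 6 * x := by subst hx; ring
  have e8 : 8 / E = 8 * x := by subst hx; ring
  have e40 : 40 / E ^ 2 = 40 * x ^ 2 := by subst hx; ring
  rw [e3, e6, e8, e40]
  have hp : 0 < (1 - 3 * x) ^ 2 := by
    have : 0 < 1 - 3 * x := by linarith
    positivity
  refine ⟨?_, ?_, by nlinarith, by linarith⟩
  · rw [le_div_iff₀ hp]; nlinarith [mul_nonneg hx0 hx0, pow_nonneg hx0 3]
  · rw [div_le_iff₀ hp]; nlinarith [mul_nonneg hx0 hx0, pow_nonneg hx0 3, pow_nonneg hx0 4,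
      mul_nonneg (mul_nonneg hx0 hx0) (show 0 ≤ 1 / 30 - x by linarith)]

/-- The effect of one step on the potential of one edge. -/
lemma phi_step {E m Y j : ℝ} (hE : 30 ≤ E) (hm : 0 < m) (hj : 0 ≤ j) (hj3 : j ≤ 3) (hjY : j ≤ Y) :
    φ ((Y - j) / (m * (1 - 3 / E) ^ 2) - 1) ≤
      φ (Y / m - 1) + 6 / E * (ψ (Y / m - 1) * (Y / m)) - j / m * ψ (Y / m - 1) +
        400 / E ^ 2 * (|ψ (Y / m - 1)| * (Y / m) + (Y / m) ^ 2) +
        400 * j * (|ψ (Y / m - 1)| / (m * E) + 1 / m ^ 2) := by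
  obtain ⟨hq1, hq2, hq3, hq4⟩ := q_bounds hE
  have h0 : 0 < E := by linarith
  have e6 : 6 / E * 1 = 6 / E := mul_one _
  generalize hq : 1 / (1 - 3 / E) ^ 2 = q at *
  have hY : 0 ≤ Y := hj.trans hjY
  obtain ⟨y, hy⟩ : ∃ y, y = Y / m := ⟨_, rfl⟩
  have hy0 : 0 ≤ y := by rw [hy]; positivity
  rw [← hy]
  have e1 : (Y - j) / (m * (1 - 3 / E) ^ 2) = q * (y - j / m) := by
    rw [hy, ← hq, div_mul_eq_div_div]; ring
  have hjy : j / m ≤ y := by rw [hy]; gcongr
  rw [e1]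
  have hb : -1 ≤ q * (y - j / m) - 1 := by
    have h6 : 0 ≤ 6 / E := by positivity
    nlinarith [mul_nonneg (show 0 ≤ q by linarith) (sub_nonneg.2 hjy)]
  have tay := φ_taylor (show -1 ≤ y - 1 by linarith) hb
  generalize ψ (y - 1) = p at *
  rw [show q * (y - j / m) - 1 - (y - 1) = (q - 1) * y - q * (j / m) by ring] at tay
  have h6 : 0 ≤ 6 / E := by positivity
  have hq5 : 0 ≤ q - 1 ∧ q - 1 ≤ 8 / E ∧ q ≤ 2 := ⟨by linarith, by linarith, by linarith⟩
  have hjm : 0 ≤ j / m := by positivity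
  have a1 : p * ((q - 1 - 6 / E) * y) ≤ |p| * (40 / E ^ 2 * y) := by
    refine (le_abs_self _).trans ?_
    rw [abs_mul, abs_of_nonneg (mul_nonneg (by linarith) hy0)]
    exact mul_le_mul_of_nonneg_left (mul_le_mul_of_nonneg_right (by linarith) hy0) (abs_nonneg _)
  have a2 : -(p * ((q - 1) * (j / m))) ≤ |p| * (8 / E * (j / m)) := by
    refine (neg_le_abs _).trans ?_
    rw [abs_mul, abs_of_nonneg (mul_nonneg hq5.1 hjm)]
    exact mul_le_mul_of_nonneg_left (mul_le_mul_of_nonneg_right hq5.2.1 hjm) (abs_nonneg _)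
  have a3 : ((q - 1) * y - q * (j / m)) ^ 2 ≤ 2 * (64 / E ^ 2 * y ^ 2) + 2 * (12 * (j / m ^ 2)) := by
    have b1 : ((q - 1) * y) ^ 2 ≤ 64 / E ^ 2 * y ^ 2 := by
      rw [mul_pow, show 64 / E ^ 2 = (8 / E) ^ 2 by ring]
      exact mul_le_mul_of_nonneg_right (pow_le_pow_left₀ hq5.1 hq5.2.1 2) (sq_nonneg _)
    have b2 : (q * (j / m)) ^ 2 ≤ 12 * (j / m ^ 2) := by
      rw [mul_pow, div_pow, ← mul_div_assoc, ← mul_div_assoc]
      refine div_le_div_of_nonneg_right ?_ (sq_nonneg m)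
      have hq4' : q ^ 2 ≤ 4 := by nlinarith [hq5.1, hq5.2.2]
      nlinarith [mul_le_mul_of_nonneg_right hq4' (sq_nonneg j), mul_le_mul_of_nonneg_left hj3 hj]
    nlinarith [sq_nonneg ((q - 1) * y + q * (j / m))]
  have c1 : 0 ≤ |p| * y / E ^ 2 := by positivity
  have c2 : 0 ≤ j / m * (|p| / E) := by positivity
  have c3 : 0 ≤ y ^ 2 / E ^ 2 := by positivity
  have c4 : 0 ≤ j / m ^ 2 := by positivity
  have t : 400 * j * (|p| / (m * E) + 1 / m ^ 2) = 400 * (j / m * (|p| / E)) + 400 * (j / m ^ 2) := by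
    ring
  rw [t]
  have t1 : 400 / E ^ 2 * (|p| * y + y ^ 2) = 400 * (|p| * y / E ^ 2) + 400 * (y ^ 2 / E ^ 2) := by
    ring
  rw [t1]
  have t2 : |p| * (40 / E ^ 2 * y) = 40 * (|p| * y / E ^ 2) := by ring
  have t3 : |p| * (8 / E * (j / m)) = 8 * (j / m * (|p| / E)) := by ring
  have t4 : 64 / E ^ 2 * y ^ 2 = 64 * (y ^ 2 / E ^ 2) := by ring
  rw [t2] at a1; rw [t3] at a2; rw [t4] at a3
  have t5 : p * ((q - 1) * y - q * (j / m)) = 6 / E * (p * y) - j / m * p +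
      p * ((q - 1 - 6 / E) * y) + -(p * ((q - 1) * (j / m))) := by ring
  rw [t5] at tay
  linarith

variable {G : Finset (Sym2 (Fin n))}

lemma Good.Epos (h : Good G) : (0 : ℝ) < G.card := by linarith [h.big]

lemma Good.mpos (h : Good G) : 0 < mG G := by linarith [h.m_one]

lemma Good.card_T (h : Good G) :
    ((triangles G).card : ℝ) = (1 + mu G) * (G.card * mG G) / 3 := by
  have := h.Epos; have := h.mpos
  rw [mu]; field_simp; ring

lemma Good.card_T_ge (h : Good G) : G.card * mG G / 6 ≤ ((triangles G).card : ℝ) := by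
  rw [h.card_T]
  nlinarith [(abs_le.1 h.mu_le).1, mul_pos h.Epos h.mpos]

lemma Good.Tpos (h : Good G) : (0 : ℝ) < (triangles G).card :=
  lt_of_lt_of_le (by have := h.Epos; have := h.mpos; positivity) h.card_T_ge

lemma dev_ge (h : Good G) (e : Sym2 (Fin n)) : -1 ≤ dev G e := by
  have := h.mpos
  have : (0 : ℝ) ≤ (cod G e : ℝ) / mG G := by positivity
  unfold dev; linarith

lemma sum_y (h : Good G) : ∑ e ∈ G, (cod G e : ℝ) / mG G = G.card * (1 + mu G) := by
  rw [← sum_div, sum_cod, h.card_T]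
  have := h.mpos
  field_simp

lemma sum_dev (h : Good G) : ∑ e ∈ G, dev G e = G.card * mu G := by
  simp only [dev, sum_sub_distrib, sum_y h, sum_const, nsmul_one]
  ring

lemma sum_dev_sq (h : Good G) : ∑ e ∈ G, dev G e ^ 2 ≤ 32 * Phi G := by
  rw [Phi, mul_sum]
  exact sum_le_sum fun e _ => sq_le_φ (dev_ge h e)

lemma sum_y_sq (h : Good G) : ∑ e ∈ G, ((cod G e : ℝ) / mG G) ^ 2 =
    G.card * (1 + 2 * mu G) + ∑ e ∈ G, dev G e ^ 2 := by
  have : ∀ e ∈ G, ((cod G e : ℝ) / mG G) ^ 2 = 1 + 2 * dev G e + dev G e ^ 2 := fun e _ => by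
    unfold dev; ring
  rw [sum_congr rfl this, sum_add_distrib, sum_add_distrib, ← mul_sum, sum_dev h, sum_const,
    nsmul_one]
  ring

lemma sum_y_sq_le (h : Good G) : ∑ e ∈ G, ((cod G e : ℝ) / mG G) ^ 2 ≤ 34 * G.card := by
  rw [sum_y_sq h]
  nlinarith [sum_dev_sq h, h.phi_le, (abs_le.1 h.mu_le).2, h.Epos]

lemma sum_cod_sq_le (h : Good G) : ∑ e ∈ G, (cod G e : ℝ) ^ 2 ≤ 34 * G.card * mG G ^ 2 := by
  have h1 := mul_le_mul_of_nonneg_right (sum_y_sq_le h) (sq_nonneg (mG G))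
  refine le_trans (le_of_eq ?_) h1
  rw [sum_mul]
  refine sum_congr rfl fun e _ => ?_
  rw [div_pow, div_mul_cancel₀ _ (by have := h.mpos; positivity)]

lemma sum_abs_psi_y (h : Good G) :
    ∑ e ∈ G, |ψ (dev G e)| * ((cod G e : ℝ) / mG G) ≤ 98 * G.card := by
  have h1 : ∀ e ∈ G, |ψ (dev G e)| * ((cod G e : ℝ) / mG G) ≤ 1 + 3 * dev G e ^ 2 := by
    intro e _
    have hm := h.mpos
    have hy : (0 : ℝ) ≤ (cod G e : ℝ) / mG G := by positivity
    have hp := mul_le_mul_of_nonneg_right (abs_ψ_le (dev_ge h e)) hy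
    have hd : (cod G e : ℝ) / mG G = 1 + dev G e := by unfold dev; ring
    rw [hd] at hp ⊢
    nlinarith [sq_nonneg (|dev G e| - 1), sq_abs (dev G e), le_abs_self (dev G e),
      abs_nonneg (dev G e)]
  refine (sum_le_sum h1).trans ?_
  rw [sum_add_distrib, ← mul_sum, sum_const, nsmul_one]
  nlinarith [sum_dev_sq h, h.phi_le]

lemma abs_sum_psi_y (h : Good G) :
    |∑ e ∈ G, ψ (dev G e) * ((cod G e : ℝ) / mG G)| ≤ 2 * G.card * |mu G| + 352 * Phi G := by
  have h1 : ∀ e ∈ G, |ψ (dev G e) * ((cod G e : ℝ) / mG G) - 2 * dev G e| ≤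
      352 * φ (dev G e) := by
    intro e _
    have hd : (cod G e : ℝ) / mG G = 1 + dev G e := by unfold dev; ring
    rw [hd, show ψ (dev G e) * (1 + dev G e) - 2 * dev G e =
      (ψ (dev G e) - 2 * dev G e) + ψ (dev G e) * dev G e by ring]
    refine (abs_add_le _ _).trans ?_
    rw [abs_mul]
    have := mul_le_mul_of_nonneg_right (abs_ψ_le (dev_ge h e)) (abs_nonneg (dev G e))
    nlinarith [abs_ψ_sub_le (dev_ge h e), sq_le_φ (dev_ge h e), sq_abs (dev G e)]
  have h2 := (abs_sum_le_sum_abs _ _).trans (sum_le_sum h1)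
  rw [sum_sub_distrib, ← mul_sum, sum_dev h, ← mul_sum] at h2
  have h3 := abs_sub_abs_le_abs_sub
    (∑ e ∈ G, ψ (dev G e) * ((cod G e : ℝ) / mG G)) (2 * (G.card * mu G))
  rw [abs_mul, abs_mul, abs_two, abs_of_pos h.Epos] at h3
  unfold Phi; linarith

/-- The potential after one step, summed over the chosen triangle. -/
lemma sum_phi_step (h : Good G) :
    ∑ t ∈ triangles G, Phi (G \ edgesOf t) ≤
      ∑ e ∈ G, (((triangles G).card : ℝ) - cod G e) *
          (φ (dev G e) + 6 / G.card * (ψ (dev G e) * ((cod G e : ℝ) / mG G)) +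
            400 / (G.card : ℝ) ^ 2 *
              (|ψ (dev G e)| * ((cod G e : ℝ) / mG G) + ((cod G e : ℝ) / mG G) ^ 2))
        - 1 / mG G * ∑ u ∈ triangles G, ∑ e ∈ edgesOf u, ψ (dev G e) * (cs G u - 2 - cod G e)
        + 400 * ∑ u ∈ triangles G, ∑ e ∈ edgesOf u,
            (|ψ (dev G e)| / (mG G * G.card) + 1 / mG G ^ 2) * (cs G u - 2 - cod G e) := by
  simp only [sub_mul]
  rw [sum_sub_distrib, ← mul_sum, ← sum_survive G, ← sum_survive_loss G, ← sum_survive_loss G,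
    mul_sum, mul_sum, ← sum_sub_distrib, ← sum_add_distrib]
  refine sum_le_sum fun t ht => ?_
  rw [Phi, mul_sum, mul_sum, ← sum_sub_distrib, ← sum_add_distrib]
  refine sum_le_sum fun e he => ?_
  have hl : (loss G t e : ℝ) ≤ 3 := by exact_mod_cast loss_le_three ht (mem_sdiff.1 he).2
  have hl2 : (loss G t e : ℝ) ≤ cod G e := by
    have := cod_sdiff (G := G) t e
    have : (0 : ℝ) ≤ (cod (G \ edgesOf t) e : ℝ) := Nat.cast_nonneg _
    linarith
  have hp := phi_step h.big h.mpos (Nat.cast_nonneg (loss G t e)) hl hl2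
  rw [dev, cod_sdiff, mG_sdiff h.Epos.ne' ht]
  refine hp.trans (le_of_eq ?_)
  unfold dev; ring

/-- Summing the pointwise inequality over the triangles. -/
lemma sum_key (h : Good G) :
    -(mG G * Phi G) + 2 * ∑ e ∈ G, (cod G e : ℝ) * ψ (dev G e) ≤
      ∑ e ∈ G, (cod G e : ℝ) * φ (dev G e) +
        1 / mG G * ∑ u ∈ triangles G, ∑ e ∈ edgesOf u, ψ (dev G e) * (cs G u - cod G e) := by
  have hm := h.mpos
  rw [← swap_sum, ← swap_sum, mul_sum, mul_sum, ← sum_add_distrib]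
  have hl : -(mG G * Phi G) ≤ ∑ u ∈ triangles G, -∑ e ∈ edgesOf u,
      φ (dev G e) / ((cod G e : ℝ) / mG G) := by
    rw [sum_neg_distrib, neg_le_neg_iff, swap_sum, Phi, mul_sum]
    refine sum_le_sum fun e _ => ?_
    rcases Nat.eq_zero_or_pos (cod G e) with h0 | h0
    · simp [h0, mul_nonneg hm.le (φ_nonneg _)]
    · have : (cod G e : ℝ) ≠ 0 := by positivity
      refine le_of_eq ?_
      field_simp
  refine (add_le_add hl le_rfl).trans ?_
  rw [← sum_add_distrib]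
  refine sum_le_sum fun u hu => ?_
  obtain ⟨a, b, c, hab, hac, hbc, hu3⟩ := Finset.card_eq_three.1 (card_edgesOf (card3_of_mem hu))
  have pos : ∀ e ∈ edgesOf u, 0 < (cod G e : ℝ) / mG G := by
    intro e he
    have : 0 < cod G e := card_pos.2 ⟨u, mem_filter.2 ⟨hu, he⟩⟩
    positivity
  have ka := pos a (by rw [hu3]; simp)
  have kb := pos b (by rw [hu3]; simp)
  have kc := pos c (by rw [hu3]; simp)
  have k := key ka kb kc
  have e1 : ∀ F : Sym2 (Fin n) → ℝ, ∑ e ∈ ({a, b, c} : Finset _), F e = F a + F b + F c := by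
    intro F
    rw [sum_insert (by simp [hab, hac]), sum_insert (by simp [hbc]), sum_singleton, add_assoc]
  simp only [cs, hu3, e1, dev] at k ⊢
  field_simp at k ⊢
  linarith

/-- Averaging and rescaling the potential. -/
lemma lam_arith {E m T Φ PY AY Y2 μ Psum : ℝ} (hE : 0 < E) (hE30 : 30 ≤ E) (hm : 0 < m)
    (hmE : m ≤ E) (hT : 0 < T) (hTge : E * m / 6 ≤ T) (hΦ : 0 ≤ Φ) (hmu' : |μ| ≤ 1 / 2)
    (hTeq : T = (1 + μ) * (E * m) / 3) (hA : AY ≤ 98 * E) (hB : Y2 ≤ 34 * E)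
    (hP : |PY| ≤ 2 * E * |μ| + 352 * Φ) (hPA : |PY| ≤ AY)
    (total : Psum ≤ T * (Φ + 6 / E * PY + 400 / E ^ 2 * (AY + Y2)) + m * Φ
      - 2 * m * PY + 12 * m + 2 * |PY| + 3600 * Y2) :
    m * (1 - 3 / E) / E * Psum ≤
      T * (m / E * Φ + 1000000 / E * (|μ| * (m / E * Φ) + μ ^ 2 * m + 1)) := by
  have hmu := abs_le.1 hmu'
  have hτ : 0 < 1 + μ := by linarith
  have b1 : m * Φ - 2 * m * PY = T * (3 / ((1 + μ) * E) * (Φ - 2 * PY)) := by
    rw [hTeq]; field_simp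
  have b2 : 12 * m + 2 * |PY| + 3600 * Y2 ≤ T * (72 / E + 744000 / m) := by
    have : E * m / 6 * (72 / E + 744000 / m) ≤ T * (72 / E + 744000 / m) :=
      mul_le_mul_of_nonneg_right hTge (by positivity)
    have e : E * m / 6 * (72 / E + 744000 / m) = 12 * m + 124000 * E := by field_simp; ring
    linarith [hPA]
  have b3 : 400 / E ^ 2 * (AY + Y2) ≤ 52800 / E := by
    calc _ ≤ 400 / E ^ 2 * (132 * E) := by gcongr; linarith
      _ = _ := by field_simp; ring
  have avg : Psum ≤ T * (Φ + 3 / ((1 + μ) * E) * Φ +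
      6 / E * (μ / (1 + μ)) * PY + (52872 / E + 744000 / m)) := by
    refine total.trans ?_
    have e : 6 / E * PY + 3 / ((1 + μ) * E) * (Φ - 2 * PY) =
        3 / ((1 + μ) * E) * Φ + 6 / E * (μ / (1 + μ)) * PY := by
      field_simp; ring
    have := mul_le_mul_of_nonneg_left b3 hT.le
    have e2 : T * (52872 / E + 744000 / m) = T * (52800 / E) + T * (72 / E + 744000 / m) := by ring
    have e' := congrArg (T * ·) e
    simp only [mul_add] at e' e2 this ⊢
    linarith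
  have h1E : 3 / E ≤ 1 / 10 := by rw [div_le_iff₀ hE]; linarith
  have hpre : 0 ≤ m * (1 - 3 / E) / E := by
    have : 0 ≤ 1 - 3 / E := by linarith
    positivity
  refine (mul_le_mul_of_nonneg_left avg hpre).trans ?_
  rw [show m * (1 - 3 / E) / E * (T * (Φ + 3 / ((1 + μ) * E) * Φ +
      6 / E * (μ / (1 + μ)) * PY + (52872 / E + 744000 / m))) =
    T * (m / E * ((1 - 3 / E) * (Φ + 3 / ((1 + μ) * E) * Φ) +
      (1 - 3 / E) * (6 / E * (μ / (1 + μ)) * PY + (52872 / E + 744000 / m)))) by ring]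
  refine mul_le_mul_of_nonneg_left ?_ hT.le
  have c1 : (1 - 3 / E) * (Φ + 3 / ((1 + μ) * E) * Φ) ≤
      Φ + 6 / E * (|μ| * Φ) := by
    have h3 : 3 / ((1 + μ) * E) - 3 / E ≤ 6 / E * |μ| := by
      rw [show 3 / ((1 + μ) * E) - 3 / E = 3 / E * (-μ / (1 + μ)) by field_simp; ring,
        show 6 / E * |μ| = 3 / E * (2 * |μ|) by ring]
      refine mul_le_mul_of_nonneg_left ?_ (by positivity)
      rw [div_le_iff₀ hτ]
      nlinarith [abs_nonneg (μ), neg_le_abs (μ)]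
    have : 0 ≤ 3 / E * (3 / ((1 + μ) * E) * Φ) := by positivity
    nlinarith [mul_le_mul_of_nonneg_right h3 hΦ]
  have c2 : (1 - 3 / E) * (6 / E * (μ / (1 + μ)) * PY + (52872 / E + 744000 / m)) ≤
      12 / E * |μ| * (2 * E * |μ| + 352 * Φ) + (52872 / E + 744000 / m) := by
    have hz : |6 / E * (μ / (1 + μ)) * PY| ≤ 12 / E * |μ| * |PY| := by
      rw [abs_mul, abs_mul, abs_of_pos (show 0 < 6 / E by positivity), abs_div, abs_of_pos hτ]
      refine mul_le_mul_of_nonneg_right ?_ (abs_nonneg _)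
      rw [show 12 / E * |μ| = 6 / E * (|μ| * 2) by ring]
      refine mul_le_mul_of_nonneg_left ?_ (by positivity)
      rw [div_le_iff₀ hτ]; nlinarith [abs_nonneg (μ)]
    have hr : 0 ≤ 52872 / E + 744000 / m := by positivity
    have hz2 : 12 / E * |μ| * |PY| ≤ 12 / E * |μ| * (2 * E * |μ| + 352 * Φ) :=
      mul_le_mul_of_nonneg_left hP (by positivity)
    have := abs_le.1 hz
    have h3 : 0 ≤ 3 / E := by positivity
    nlinarith [mul_nonneg h3 hr]
  have e : m / E * (Φ + 6 / E * (|μ| * Φ) +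
      (12 / E * |μ| * (2 * E * |μ| + 352 * Φ) + (52872 / E + 744000 / m))) =
      m / E * Φ + (4230 * (|μ| * (m / E * Φ)) + 24 * (μ ^ 2 * m) +
        (52872 * (m / E) + 744000)) / E := by
    rw [← sq_abs (μ)]; field_simp; ring
  refine (mul_le_mul_of_nonneg_left (add_le_add c1 c2) (by positivity)).trans ?_
  rw [e, div_mul_eq_mul_div 1000000 E]
  refine add_le_add le_rfl (div_le_div_of_nonneg_right ?_ hE.le)
  have : m / E ≤ 1 := by
    rw [div_le_one hE]; linarith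
  have : 0 ≤ |μ| * (m / E * Φ) := by positivity
  have : 0 ≤ μ ^ 2 * m := by positivity
  linarith


/-- The drift of the rescaled potential. -/
lemma lam_drift (h : Good G) :
    ∑ t ∈ triangles G, Lam (G \ edgesOf t) ≤
      (triangles G).card * (Lam G + 1000000 / G.card * (|mu G| * Lam G + mu G ^ 2 * mG G + 1)) := by
  have hm := h.mpos
  have hE := h.Epos
  have hT := h.Tpos
  obtain ⟨E, hEdef⟩ : ∃ E : ℝ, E = G.card := ⟨_, rfl⟩
  obtain ⟨m, hmdef⟩ : ∃ m : ℝ, m = mG G := ⟨_, rfl⟩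
  obtain ⟨T, hTdef⟩ : ∃ T : ℝ, T = (triangles G).card := ⟨_, rfl⟩
  obtain ⟨Y2, hY2⟩ : ∃ Y2, Y2 = ∑ e ∈ G, ((cod G e : ℝ) / mG G) ^ 2 := ⟨_, rfl⟩
  obtain ⟨PY, hPY⟩ : ∃ PY, PY = ∑ e ∈ G, ψ (dev G e) * ((cod G e : ℝ) / mG G) := ⟨_, rfl⟩
  obtain ⟨AY, hAY⟩ : ∃ AY, AY = ∑ e ∈ G, |ψ (dev G e)| * ((cod G e : ℝ) / mG G) := ⟨_, rfl⟩
  have hE30 := h.big
  have hTge := h.card_T_ge
  rw [← hEdef] at hE hE30 hTge; rw [← hmdef] at hm hTge; rw [← hTdef] at hT hTge
  have step := sum_phi_step h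
  have keyS := sum_key h
  -- split off the constant in the first-order term
  have split : ∑ u ∈ triangles G, ∑ e ∈ edgesOf u, ψ (dev G e) * (cs G u - 2 - cod G e) =
      ∑ u ∈ triangles G, ∑ e ∈ edgesOf u, ψ (dev G e) * (cs G u - cod G e) -
        2 * ∑ e ∈ G, (cod G e : ℝ) * ψ (dev G e) := by
    rw [← swap_sum, mul_sum, ← sum_sub_distrib]
    refine sum_congr rfl fun u _ => ?_
    rw [mul_sum, ← sum_sub_distrib]
    exact sum_congr rfl fun e _ => by ring
  have cpsi : ∑ e ∈ G, (cod G e : ℝ) * ψ (dev G e) = m * PY := by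
    rw [hPY, mul_sum, hmdef]
    refine sum_congr rfl fun e _ => ?_
    rw [mul_left_comm, mul_div_cancel₀ _ h.mpos.ne', mul_comm]
  -- the weight of the second-order loss term
  have werr : ∑ u ∈ triangles G, ∑ e ∈ edgesOf u,
      (|ψ (dev G e)| / (mG G * G.card) + 1 / mG G ^ 2) * (cs G u - 2 - cod G e) ≤ 9 * Y2 := by
    have hw : ∀ e ∈ G, |ψ (dev G e)| / (mG G * G.card) + 1 / mG G ^ 2 ≤ 3 / mG G ^ 2 := by
      intro e _
      have hy : (cod G e : ℝ) / mG G ≤ n / mG G :=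
        div_le_div_of_nonneg_right (by exact_mod_cast cod_le G e) h.mpos.le
      have hd : |dev G e| ≤ 1 + n / mG G := by
        have h0 : (0 : ℝ) ≤ (cod G e : ℝ) / mG G := div_nonneg (Nat.cast_nonneg _) h.mpos.le
        unfold dev; rw [abs_le]; constructor <;> linarith
      have h1 := (abs_ψ_le (dev_ge h e)).trans (mul_le_mul_of_nonneg_left hd two_pos.le)
      have := h.mpos; have := h.Epos
      have h2 : |ψ (dev G e)| / (mG G * G.card) ≤ 2 / mG G ^ 2 := by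
        rw [div_le_div_iff₀ (by positivity) (by positivity)]
        have e : (2 * (1 + (n : ℝ) / mG G)) * mG G ^ 2 = 2 * mG G * (mG G + n) := by field_simp
        nlinarith [mul_le_mul_of_nonneg_right h1 (sq_nonneg (mG G)),
          mul_le_mul_of_nonneg_left h.n_le h.mpos.le]
      calc _ ≤ 2 / mG G ^ 2 + 1 / mG G ^ 2 := by linarith
        _ = _ := by ring
    have hcs : ∀ u ∈ triangles G, ∀ e ∈ edgesOf u,
        0 ≤ cs G u ∧ cs G u - 2 - cod G e ≤ cs G u := fun u _ e _ =>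
      ⟨sum_nonneg fun _ _ => Nat.cast_nonneg _,
        by linarith [show (0 : ℝ) ≤ cod G e from Nat.cast_nonneg _]⟩
    calc _ ≤ ∑ u ∈ triangles G, ∑ _e ∈ edgesOf u, 3 / mG G ^ 2 * cs G u := by
          refine sum_le_sum fun u hu => sum_le_sum fun e he => ?_
          have hw0 : 0 ≤ |ψ (dev G e)| / (mG G * G.card) + 1 / mG G ^ 2 := by
            have := h.mpos; positivity
          exact (mul_le_mul_of_nonneg_left (hcs u hu e he).2 hw0).trans
            (mul_le_mul_of_nonneg_right (hw e (edgesOf_sub hu he)) (hcs u hu e he).1)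
      _ = ∑ u ∈ triangles G, 9 / mG G ^ 2 * cs G u := by
          refine sum_congr rfl fun u hu => ?_
          rw [sum_const, card_edgesOf (card3_of_mem hu), nsmul_eq_mul]; push_cast; ring
      _ = _ := by
          rw [← mul_sum, sum_cs, hY2, mul_sum, mul_sum]
          exact sum_congr rfl fun e _ => by ring
  -- the main sum
  have main : ∑ e ∈ G, (((triangles G).card : ℝ) - cod G e) *
      (φ (dev G e) + 6 / G.card * (ψ (dev G e) * ((cod G e : ℝ) / mG G)) +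
        400 / (G.card : ℝ) ^ 2 *
          (|ψ (dev G e)| * ((cod G e : ℝ) / mG G) + ((cod G e : ℝ) / mG G) ^ 2)) ≤
      T * (Phi G + 6 / E * PY + 400 / E ^ 2 * (AY + Y2)) -
        ∑ e ∈ G, (cod G e : ℝ) * φ (dev G e) + 12 * m := by
    rw [hPY, hAY, hY2, Phi, ← sum_add_distrib, mul_sum, mul_sum, ← sum_add_distrib,
      ← sum_add_distrib, mul_sum, ← sum_sub_distrib]
    rw [show 12 * m = ∑ _e ∈ G, 12 * m / E by
      rw [sum_const, nsmul_eq_mul, ← hEdef]; field_simp, ← sum_add_distrib]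
    refine sum_le_sum fun e _ => ?_
    rw [← hEdef, ← hmdef, ← hTdef]
    have hy : (0 : ℝ) ≤ (cod G e : ℝ) / m := by positivity
    have hY : (0 : ℝ) ≤ (cod G e : ℝ) := Nat.cast_nonneg _
    have hq : 0 ≤ 400 / E ^ 2 * (|ψ (dev G e)| * ((cod G e : ℝ) / m) + ((cod G e : ℝ) / m) ^ 2) := by
      positivity
    have h2 : -2 ≤ (cod G e : ℝ) / m * (ψ (dev G e) * ((cod G e : ℝ) / m)) := by
      rcases le_or_gt 0 (dev G e) with hd | hd
      · have : 0 ≤ ψ (dev G e) := (ρ_nonneg hd).trans (ψ_ge_ρ hd)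
        have : 0 ≤ (cod G e : ℝ) / m * (ψ (dev G e) * ((cod G e : ℝ) / m)) := by positivity
        linarith
      · have hy1 : (cod G e : ℝ) / m ≤ 1 := by
          unfold dev at hd; rw [← hmdef] at hd; linarith
        have ha := abs_ψ_le (dev_ge h e)
        have : |dev G e| ≤ 1 := by rw [abs_of_neg hd]; linarith [dev_ge h e]
        have hp : -2 ≤ ψ (dev G e) := by linarith [(abs_le.1 ha).1]
        nlinarith [mul_le_mul_of_nonneg_left hy1 hy]
    have h3 : -(12 * m / E) ≤ (cod G e : ℝ) * (6 / E * (ψ (dev G e) * ((cod G e : ℝ) / m))) := by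
      have := mul_le_mul_of_nonneg_left h2 (show 0 ≤ 6 * m / E by positivity)
      refine le_trans (le_of_eq ?_) (this.trans (le_of_eq ?_))
      · ring
      · field_simp
    nlinarith [mul_nonneg hY hq]
  -- assemble
  rw [split, cpsi] at step
  rw [cpsi] at keyS
  rw [← hmdef] at step keyS main werr
  rw [← hEdef] at step main werr
  rw [← hTdef] at step main
  have hA : AY ≤ 98 * E := by rw [hAY, hEdef]; exact sum_abs_psi_y h
  have hB : Y2 ≤ 34 * E := by rw [hY2, hEdef]; exact sum_y_sq_le h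
  have hP : |PY| ≤ 2 * E * |mu G| + 352 * Phi G := by rw [hPY, hEdef]; exact abs_sum_psi_y h
  have hPA : |PY| ≤ AY := by
    rw [hPY, hAY]
    refine (abs_sum_le_sum_abs _ _).trans (le_of_eq (sum_congr rfl fun e _ => ?_))
    rw [abs_mul, abs_of_nonneg (div_nonneg (Nat.cast_nonneg _) h.mpos.le)]
  obtain ⟨Psum, hPsum⟩ : ∃ P, P = ∑ t ∈ triangles G, Phi (G \ edgesOf t) := ⟨_, rfl⟩
  have total : Psum ≤ T * (Phi G + 6 / E * PY + 400 / E ^ 2 * (AY + Y2)) + m * Phi G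
      - 2 * m * PY + 12 * m + 2 * |PY| + 3600 * Y2 := by
    have e : 1 / m * (2 * (m * PY)) = 2 * PY := by field_simp
    rw [mul_sub, e] at step
    rw [hPsum]
    linarith [le_abs_self PY, main, keyS, werr, step]
  have lam : ∑ t ∈ triangles G, Lam (G \ edgesOf t) = m * (1 - 3 / E) / E * Psum := by
    rw [hPsum, mul_sum]
    refine sum_congr rfl fun t ht => ?_
    rw [Lam, mG_sdiff h.Epos.ne' ht, card_sdiff_edgesOf ht, ← hEdef, ← hmdef]
    have : E - 3 ≠ 0 := by linarith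
    field_simp
  rw [lam, ← hTdef, Lam, ← hmdef, ← hEdef]
  exact lam_arith hE hE30 hm
    (by rw [hmdef, hEdef]; linarith [h.n_le, show (0 : ℝ) ≤ n from Nat.cast_nonneg n]) hT hTge
    (sum_nonneg fun e _ => φ_nonneg _) h.mu_le (by rw [hTdef, hEdef, hmdef]; exact h.card_T)
    hA hB hP hPA total

/-- The total number of destroyed triangles, and of their squares. -/
lemma kill_moments (h : Good G) :
    ∑ t ∈ triangles G, (kill G t : ℝ) = ∑ e ∈ G, (cod G e : ℝ) ^ 2 - 2 * (triangles G).card ∧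
      ∑ t ∈ triangles G, (kill G t : ℝ) ^ 2 ≤ 3 * n * ∑ e ∈ G, (cod G e : ℝ) ^ 2 := by
  constructor
  · rw [sum_congr rfl fun t ht => kill_eq ht, sum_sub_distrib, sum_cs, sum_const, nsmul_eq_mul]
    ring
  · rw [← sum_cs, mul_sum]
    refine sum_le_sum fun t ht => ?_
    have h1 : (kill G t : ℝ) ≤ cs G t := by rw [kill_eq ht]; linarith
    have h2 : cs G t ≤ 3 * n := by
      refine (sum_le_card_nsmul _ _ (n : ℝ) fun e _ => by exact_mod_cast cod_le G e).trans ?_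
      rw [card_edgesOf (card3_of_mem ht), nsmul_eq_mul]; norm_num
    have h0 : (0 : ℝ) ≤ kill G t := Nat.cast_nonneg _
    nlinarith

lemma mu_sdiff (h : Good G) {t : Finset (Fin n)} (ht : t ∈ triangles G) :
    mu (G \ edgesOf t) = 1 / (1 - 3 / (G.card : ℝ)) ^ 3 *
      (1 + mu G - 3 * kill G t / (G.card * mG G)) - 1 := by
  have hE := h.Epos; have := h.mpos
  have : (G.card : ℝ) - 3 ≠ 0 := by linarith [h.big]
  rw [mu, mu, mG_sdiff hE.ne' ht, card_sdiff_edgesOf ht, card_triangles_sdiff]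
  field_simp
  ring

lemma q3_bounds {E : ℝ} (hE : 30 ≤ E) :
    |1 / (1 - 3 / E) ^ 3 - 1 - 9 / E| ≤ 100 / E ^ 2 ∧ |1 / (1 - 3 / E) ^ 3 - 1| ≤ 13 / E ∧
      0 < 1 / (1 - 3 / E) ^ 3 ∧ 1 / (1 - 3 / E) ^ 3 ≤ 2 := by
  have h0 : 0 < E := by linarith
  obtain ⟨x, hx, hx0, hx1⟩ : ∃ x, x = 1 / E ∧ 0 ≤ x ∧ x ≤ 1 / 30 :=
    ⟨1 / E, rfl, by positivity, one_div_le_one_div_of_le (by norm_num) hE⟩
  rw [show 3 / E = 3 * x by subst hx; ring, show 9 / E = 9 * x by subst hx; ring,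
    show 13 / E = 13 * x by subst hx; ring, show 100 / E ^ 2 = 100 * x ^ 2 by subst hx; ring]
  have hp : 0 < (1 - 3 * x) ^ 3 := by
    have : 0 < 1 - 3 * x := by linarith
    positivity
  have up : 1 / (1 - 3 * x) ^ 3 ≤ 1 + 9 * x + 100 * x ^ 2 := by
    rw [div_le_iff₀ hp]
    nlinarith [mul_nonneg (mul_nonneg hx0 hx0) (show 0 ≤ 1 / 30 - x by linarith),
      mul_nonneg hx0 hx0, pow_nonneg hx0 4, pow_nonneg hx0 5,
      mul_nonneg (pow_nonneg hx0 3) (show 0 ≤ 1 / 30 - x by linarith)]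
  have lo : 1 + 9 * x ≤ 1 / (1 - 3 * x) ^ 3 := by
    rw [le_div_iff₀ hp]
    nlinarith [mul_nonneg hx0 hx0, mul_nonneg (mul_nonneg hx0 hx0) (show 0 ≤ 1 / 30 - x by linarith),
      pow_nonneg hx0 4]
  refine ⟨abs_le.2 ⟨?_, ?_⟩, abs_le.2 ⟨?_, ?_⟩, by positivity, ?_⟩ <;> nlinarith

lemma sub_sq_le_two (a b : ℝ) : (a - b) ^ 2 ≤ 2 * a ^ 2 + 2 * b ^ 2 := by
  nlinarith [sq_nonneg (a + b)]

/-- The drift and the mean square increment of the relative triangle count. -/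
lemma mu_drift (h : Good G) :
    |∑ t ∈ triangles G, (mu (G \ edgesOf t) - mu G)| ≤
        (triangles G).card * (10000 / G.card * (mu G ^ 2 + (Lam G + 1) / mG G)) ∧
      ∑ t ∈ triangles G, (mu (G \ edgesOf t) - mu G) ^ 2 ≤
        (triangles G).card * (100000 * n / ((G.card : ℝ) ^ 2 * mG G)) := by
  obtain ⟨k1, k2⟩ := kill_moments h
  obtain ⟨E, hEdef⟩ : ∃ E : ℝ, E = G.card := ⟨_, rfl⟩
  obtain ⟨m, hmdef⟩ : ∃ m : ℝ, m = mG G := ⟨_, rfl⟩
  obtain ⟨T, hTdef⟩ : ∃ T : ℝ, T = (triangles G).card := ⟨_, rfl⟩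
  obtain ⟨v, hv⟩ : ∃ v, v = (∑ e ∈ G, dev G e ^ 2) / G.card := ⟨_, rfl⟩
  have hE := h.Epos; have hm := h.mpos; have hT := h.Tpos; have hTge := h.card_T_ge
  have hE30 := h.big; have hmn := h.m_le; have hm1 := h.m_one; have hnE := h.n_le
  rw [← hEdef] at hE hE30 hTge hnE; rw [← hmdef] at hm hTge hmn hm1 hnE
  rw [← hTdef] at hT hTge
  obtain ⟨q1, q2, q0, q3⟩ := q3_bounds hE30
  generalize hq : 1 / (1 - 3 / E) ^ 3 = q at *
  have inc : ∀ t ∈ triangles G, mu (G \ edgesOf t) - mu G =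
      (q - 1) * (1 + mu G) - q * (3 / (E * m)) * kill G t := by
    intro t ht
    rw [mu_sdiff h ht, ← hEdef, ← hmdef, hq]; ring
  have hmu := abs_le.1 h.mu_le
  have hY : ∑ e ∈ G, (cod G e : ℝ) ^ 2 = m ^ 2 * (E * (1 + 2 * mu G + v)) := by
    have h1 : ∑ e ∈ G, (cod G e : ℝ) ^ 2 = m ^ 2 * ∑ e ∈ G, ((cod G e : ℝ) / mG G) ^ 2 := by
      rw [mul_sum]
      refine sum_congr rfl fun e _ => ?_
      rw [hmdef]; have := h.mpos; field_simp
    rw [h1, sum_y_sq h, hv, ← hEdef]; field_simp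
  have hTeq : T = (1 + mu G) * (E * m) / 3 := by rw [hTdef, hEdef, hmdef]; exact h.card_T
  have hv0 : 0 ≤ v := by rw [hv]; exact div_nonneg (sum_nonneg fun _ _ => sq_nonneg _) h.Epos.le
  have hvL : v ≤ 32 * (Lam G / m) := by
    rw [hv, Lam, ← hEdef, ← hmdef]
    calc _ ≤ 32 * Phi G / E := div_le_div_of_nonneg_right (sum_dev_sq h) hE.le
      _ = _ := by field_simp
  have hv32 : v ≤ 32 := by
    rw [hv, div_le_iff₀ h.Epos]
    linarith [sum_dev_sq h, h.phi_le]
  refine ⟨?_, ?_⟩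
  · rw [sum_congr rfl inc, sum_sub_distrib, sum_const, nsmul_eq_mul, ← mul_sum, k1, hY, ← hTdef,
      ← hEdef, ← hmdef]
    have hτ : 0 < 1 + mu G := by linarith
    have e : T * ((q - 1) * (1 + mu G)) - q * (3 / (E * m)) *
        (m ^ 2 * (E * (1 + 2 * mu G + v)) - 2 * T) =
        T * (9 / E * ((mu G ^ 2 - v) / (1 + mu G)) + (q - 1 - 9 / E) * (1 + mu G) -
          (q - 1) * (9 / E) * ((1 + 2 * mu G + v) / (1 + mu G)) + q * (6 / (E * m))) := by
      rw [hTeq]; field_simp; ring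
    rw [e, abs_mul, abs_of_pos hT]
    refine mul_le_mul_of_nonneg_left ?_ hT.le
    have hL : 0 ≤ Lam G := by
      rw [Lam]
      exact mul_nonneg (div_nonneg h.mpos.le h.Epos.le) (sum_nonneg fun e _ => φ_nonneg _)
    have p1 : |(mu G ^ 2 - v) / (1 + mu G)| ≤ 2 * (mu G ^ 2 + v) := by
      rw [abs_div, abs_of_pos hτ, div_le_iff₀ hτ]
      have := abs_sub_le (mu G ^ 2) 0 v
      simp only [sub_zero, zero_sub, abs_neg, abs_of_nonneg hv0,
        abs_of_nonneg (sq_nonneg (mu G))] at this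
      nlinarith [sq_nonneg (mu G)]
    have p3 : |(1 + 2 * mu G + v) / (1 + mu G)| ≤ 70 := by
      rw [abs_div, abs_of_pos hτ, div_le_iff₀ hτ, abs_le]
      constructor <;> linarith
    have i1 : 1 / E ≤ 1 / m :=
      one_div_le_one_div_of_le hm (by linarith [show (0 : ℝ) ≤ n from Nat.cast_nonneg n])
    have t1 : |9 / E * ((mu G ^ 2 - v) / (1 + mu G))| ≤ 18 / E * (mu G ^ 2 + v) := by
      rw [abs_mul, abs_of_pos (show 0 < 9 / E by positivity)]
      calc _ ≤ 9 / E * (2 * (mu G ^ 2 + v)) := mul_le_mul_of_nonneg_left p1 (by positivity)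
        _ = _ := by ring
    have t2 : |(q - 1 - 9 / E) * (1 + mu G)| ≤ 150 / E * (1 / m) := by
      rw [abs_mul, abs_of_pos hτ]
      calc _ ≤ 100 / E ^ 2 * (3 / 2) := mul_le_mul q1 (by linarith) hτ.le (by positivity)
        _ = 150 / E * (1 / E) := by ring
        _ ≤ _ := mul_le_mul_of_nonneg_left i1 (by positivity)
    have t3 : |(q - 1) * (9 / E) * ((1 + 2 * mu G + v) / (1 + mu G))| ≤ 8190 / E * (1 / m) := by
      rw [abs_mul, abs_mul, abs_of_pos (show 0 < 9 / E by positivity)]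
      calc _ ≤ 13 / E * (9 / E) * 70 := by gcongr
        _ = 8190 / E * (1 / E) := by ring
        _ ≤ _ := mul_le_mul_of_nonneg_left i1 (by positivity)
    have t4 : |q * (6 / (E * m))| ≤ 12 / E * (1 / m) := by
      rw [abs_of_nonneg (by positivity)]
      calc _ ≤ 2 * (6 / (E * m)) := by gcongr
        _ = _ := by ring
    rw [show 10000 / E * (mu G ^ 2 + (Lam G + 1) / m) =
      10000 / E * mu G ^ 2 + 10000 / E * (Lam G / m) + 10000 / E * (1 / m) by ring]
    have hv' : 18 / E * v ≤ 576 / E * (Lam G / m) := by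
      calc _ ≤ 18 / E * (32 * (Lam G / m)) := mul_le_mul_of_nonneg_left hvL (by positivity)
        _ = _ := by ring
    have z1 : 0 ≤ 1 / E * mu G ^ 2 := by positivity
    have z2 : 0 ≤ 1 / E * (Lam G / m) := by positivity
    have z3 : 0 ≤ 1 / E * (1 / m) := by positivity
    rw [show 10000 / E * mu G ^ 2 = 10000 * (1 / E * mu G ^ 2) by ring,
      show 10000 / E * (Lam G / m) = 10000 * (1 / E * (Lam G / m)) by ring,
      show 10000 / E * (1 / m) = 10000 * (1 / E * (1 / m)) by ring]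
    rw [show 150 / E * (1 / m) = 150 * (1 / E * (1 / m)) by ring] at t2
    rw [show 8190 / E * (1 / m) = 8190 * (1 / E * (1 / m)) by ring] at t3
    rw [show 12 / E * (1 / m) = 12 * (1 / E * (1 / m)) by ring] at t4
    rw [show 576 / E * (Lam G / m) = 576 * (1 / E * (Lam G / m)) by ring] at hv'
    rw [show 18 / E * (mu G ^ 2 + v) = 18 * (1 / E * mu G ^ 2) + 18 / E * v by ring] at t1
    obtain ⟨t1a, t1b⟩ := abs_le.1 t1
    obtain ⟨t2a, t2b⟩ := abs_le.1 t2
    obtain ⟨t3a, t3b⟩ := abs_le.1 t3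
    obtain ⟨t4a, t4b⟩ := abs_le.1 t4
    rw [abs_le]
    constructor <;> linarith
  · rw [sum_congr rfl fun t ht => by rw [inc t ht], ← hTdef, ← hEdef, ← hmdef]
    have one : ∀ t ∈ triangles G, ((q - 1) * (1 + mu G) - q * (3 / (E * m)) * kill G t) ^ 2 ≤
        1000 / E ^ 2 + 72 / (E * m) ^ 2 * (kill G t : ℝ) ^ 2 := by
      intro t _
      have b1 : ((q - 1) * (1 + mu G)) ^ 2 ≤ 500 / E ^ 2 := by
        rw [mul_pow]
        calc _ ≤ (13 / E) ^ 2 * (9 / 4) := by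
              refine mul_le_mul ?_ ((pow_le_pow_left₀ (by linarith)
                (show 1 + mu G ≤ 3 / 2 by linarith) 2).trans_eq (by norm_num)) (sq_nonneg _) (sq_nonneg _)
              rw [← sq_abs (q - 1)]; gcongr
          _ ≤ _ := by rw [div_pow, div_mul_eq_mul_div]; gcongr; norm_num
      have b2 : (q * (3 / (E * m)) * kill G t) ^ 2 ≤ 36 / (E * m) ^ 2 * (kill G t : ℝ) ^ 2 := by
        rw [mul_pow, mul_pow]
        refine mul_le_mul_of_nonneg_right ?_ (sq_nonneg _)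
        calc _ ≤ 2 ^ 2 * (3 / (E * m)) ^ 2 := by gcongr
          _ = _ := by ring
      have d1 : (1000 : ℝ) / E ^ 2 = 2 * (500 / E ^ 2) := by ring
      have d2 : 72 / (E * m) ^ 2 * (kill G t : ℝ) ^ 2 =
          2 * (36 / (E * m) ^ 2 * (kill G t : ℝ) ^ 2) := by ring
      linarith [sub_sq_le_two ((q - 1) * (1 + mu G)) (q * (3 / (E * m)) * kill G t)]
    refine (sum_le_sum one).trans ?_
    rw [sum_add_distrib, sum_const, nsmul_eq_mul, ← mul_sum, ← hTdef]
    have k3 : ∑ t ∈ triangles G, (kill G t : ℝ) ^ 2 ≤ 102 * n * E * m ^ 2 := by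
      refine k2.trans ?_
      have := mul_le_mul_of_nonneg_left (sum_cod_sq_le h) (show (0 : ℝ) ≤ 3 * n by positivity)
      rw [← hEdef, ← hmdef] at this; linarith
    have a1 : 1000 / E ^ 2 ≤ 1000 * n / (E ^ 2 * m) := by
      rw [div_le_div_iff₀ (by positivity) (by positivity)]
      nlinarith [mul_le_mul_of_nonneg_left hmn (show (0 : ℝ) ≤ 1000 * E ^ 2 by positivity)]
    have a2 : 72 / (E * m) ^ 2 * ∑ t ∈ triangles G, (kill G t : ℝ) ^ 2 ≤
        T * (44064 * n / (E ^ 2 * m)) := by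
      refine (mul_le_mul_of_nonneg_left k3 (by positivity)).trans ?_
      refine le_trans (le_of_eq ?_)
        (mul_le_mul_of_nonneg_right hTge (show (0 : ℝ) ≤ 44064 * n / (E ^ 2 * m) by positivity))
      field_simp; ring
    have e : T * (100000 * n / (E ^ 2 * m)) =
        T * (1000 * n / (E ^ 2 * m)) + T * (99000 * n / (E ^ 2 * m)) := by ring
    have : T * (44064 * (n:ℝ) / (E ^ 2 * m)) ≤ T * (99000 * n / (E ^ 2 * m)) := by
      gcongr; norm_num
    rw [e]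
    linarith [mul_le_mul_of_nonneg_left a1 hT.le]

end Vale.Agent.P046.Track
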